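import Vale.Agent.P088.R2.H673.S3.QC
import Vale.Agent.P088.R2.H354.S11
import Vale.Agent.P088.R2.H238.S3.Tfrw

/-!
# P088, stages 3 and 4: the cut-off near the diagonal
-/

open MeasureTheory Set Filter Topology
open scoped ContDiff Matrix

noncomputable section

namespace Vale.Agent.P088.S4.H509

open Vale.Agent.P088.LR
open Vale.Agent.P088.HY (VV)
open Vale.Agent.P088.HY.T3 (Ao Ac isOpen_Ao isClosed_Ac)
open Vale.Agent.P088.HY.S3 (Jl)

variable {n : ℕ}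

/-- Off the support of the derivative of the cut-off. -/
theorem off_ts {E : Type*} [NormedAddCommGroup E] [NormedSpace ℝ E] {η : E → ℝ} {B : Set E}
    (hB : IsOpen B) (h : ∀ z ∈ B, η z = 1) : ∀ z ∈ B, z ∉ tsupport (fderiv ℝ η) := by
  intro z hz
  rw [notMem_tsupport_iff_eventuallyEq]
  filter_upwards [hB.mem_nhds hz] with w hw
  have : η =ᶠ[𝓝 w] fun _ => 1 := eventuallyEq_of_mem (hB.mem_nhds hw) h
  rw [this.fderiv_eq]
  simp

theorem bdd_jets {E : Type*} [NormedAddCommGroup E] [NormedSpace ℝ E] {f : E → ℝ}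
    (hf : ContDiff ℝ ∞ f) (hc : HasCompactSupport f) (L : ℕ) :
    ∃ C : ℝ, 1 ≤ C ∧ ∀ l ≤ L, ∀ x, ‖iteratedFDeriv ℝ l f x‖ ≤ C := by
  have h : ∀ l : ℕ, ∃ C : ℝ, ∀ x, ‖iteratedFDeriv ℝ l f x‖ ≤ C := fun l =>
    (hc.iteratedFDeriv (𝕜 := ℝ) l).exists_bound_of_continuous
      (hf.continuous_iteratedFDeriv (by exact_mod_cast le_top))
  choose c hc using h
  refine ⟨1 + ∑ l ∈ Finset.range (L + 1), |c l|, ?_, fun l hl x => ?_⟩
  · have : 0 ≤ ∑ l ∈ Finset.range (L + 1), |c l| := Finset.sum_nonneg fun _ _ => abs_nonneg _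
    linarith
  · have h1 : |c l| ≤ ∑ l ∈ Finset.range (L + 1), |c l| :=
      Finset.single_le_sum (f := fun l => |c l|) (fun _ _ => abs_nonneg _)
        (Finset.mem_range.2 (by omega))
    have h2 := (hc l x).trans (le_abs_self _)
    linarith

/-- `(x, y) ↦ (x - y) / t`. -/
def Mt (n : ℕ) (t : ℝ) : VV n →L[ℝ] V n :=
  t⁻¹ • (ContinuousLinearMap.fst ℝ (V n) (V n) - ContinuousLinearMap.snd ℝ (V n) (V n))

theorem Mt_apply (t : ℝ) (z : VV n) : Mt n t z = t⁻¹ • (z.1 - z.2) := rfl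

theorem norm_Mt {t : ℝ} (ht : 0 < t) : ‖Mt n t‖ ≤ 2 / t := by
  refine ContinuousLinearMap.opNorm_le_bound _ (by positivity) fun z => ?_
  rw [Mt_apply, norm_smul, norm_inv, Real.norm_eq_abs, abs_of_pos ht]
  have h1 : ‖z.1 - z.2‖ ≤ 2 * ‖z‖ := by
    calc ‖z.1 - z.2‖ ≤ ‖z.1‖ + ‖z.2‖ := norm_sub_le _ _
      _ ≤ ‖z‖ + ‖z‖ := add_le_add (norm_fst_le z) (norm_snd_le z)
      _ = 2 * ‖z‖ := by ring
  calc t⁻¹ * ‖z.1 - z.2‖ ≤ t⁻¹ * (2 * ‖z‖) := mul_le_mul_of_nonneg_left h1 (by positivity)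
    _ = 2 / t * ‖z‖ := by ring

/-- **The cut-off near the diagonal.** -/
theorem exists_eta (n L : ℕ) {a a' b' b : ℝ} (haa : a < a') (hbb : b' < b) :
    ∃ C : ℝ, 1 ≤ C ∧ ∀ t : ℝ, 0 < t → t ≤ 1 → ∃ η : VV n → ℝ, ContDiff ℝ ∞ η ∧
    (∀ z, 0 ≤ η z ∧ η z ≤ 1) ∧ (∀ l ≤ L, ∀ z, ‖iteratedFDeriv ℝ l η z‖ ≤ C / t ^ L) ∧
    (∀ z ∈ tsupport η, z.1 ∈ Ao n a b ∧ ‖z.1 - z.2‖ ≤ t) ∧
    (∀ z, z.1 ∈ Ac n a' b' → ‖z.1 - z.2‖ ≤ t / 2 → η z = 1) ∧
    (∀ z ∈ tsupport (fderiv ℝ η), t / 2 ≤ ‖z.1 - z.2‖ ∨ z.1 ∉ Ao n a' b') := by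
  obtain ⟨χ, O, c1, c2, -, c3, c4, c5⟩ := R2.H238.S3.ex_cut (isClosed_Ac (n := n) a' b')
    (isOpen_Ao (n := n) a b) (fun x hx => ⟨haa.trans_le hx.1, hx.2.trans_lt hbb⟩)
  have hχc : HasCompactSupport χ := by
    refine (HY.T3.isCompact_Ac (n := n) a b).of_isClosed_subset (isClosed_tsupport χ) fun x hx => ?_
    have := c2 hx
    exact ⟨this.1.le, this.2.le⟩
  let θ : ContDiffBump (0 : V n) := ⟨1 / 2, 1, by norm_num, by norm_num⟩
  obtain ⟨A, hA, hAj⟩ := bdd_jets c1 hχc L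
  obtain ⟨B, hB, hBj⟩ := bdd_jets (f := (θ : V n → ℝ)) θ.contDiff θ.hasCompactSupport L
  refine ⟨2 ^ L * (A * (B * 2 ^ L)), ?_, fun t ht ht1 => ?_⟩
  · have h1 : (1 : ℝ) ≤ 2 ^ L := one_le_pow₀ (by norm_num)
    have h2 : 1 ≤ B * 2 ^ L := one_le_mul_of_one_le_of_one_le hB h1
    exact one_le_mul_of_one_le_of_one_le h1 (one_le_mul_of_one_le_of_one_le hA h2)
  refine ⟨fun z => χ z.1 * θ (Mt n t z), ?_, ?_, ?_, ?_, ?_, ?_⟩
  · exact (c1.comp contDiff_fst).mul (θ.contDiff.comp (Mt n t).contDiff)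
  · intro z
    exact ⟨mul_nonneg (c5 _).1 θ.nonneg, mul_le_one₀ (c5 _).2 θ.nonneg θ.le_one⟩
  · intro l hl z
    have j1 : Jl (univ : Set (VV n)) L (fun _ => A) (fun z => χ z.1) :=
      Jl.comp_clm (O := univ) isOpen_univ (ContinuousLinearMap.fst ℝ (V n) (V n))
        (ContinuousLinearMap.norm_fst_le ℝ _ _) (a := fun _ => A) (f := χ)
        ⟨c1.contDiffOn, fun l hl x _ => hAj l hl x⟩ (fun _ _ => mem_univ _)
    have j2 : Jl (univ : Set (VV n)) L (fun _ => B * 2 ^ L / t ^ L) (fun z => θ (Mt n t z)) := by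
      refine ⟨(θ.contDiff.comp (Mt n t).contDiff).contDiffOn, fun m hm z _ => ?_⟩
      have e : (fun z => θ (Mt n t z)) = (θ : V n → ℝ) ∘ Mt n t := rfl
      rw [e, (Mt n t).iteratedFDeriv_comp_right (n := ∞) θ.contDiff z (by exact_mod_cast le_top)]
      refine ((iteratedFDeriv ℝ m (θ : V n → ℝ)
        (Mt n t z)).norm_compContinuousLinearMap_le _).trans ?_
      rw [Finset.prod_const, Finset.card_univ, Fintype.card_fin]
      have h2 : ‖Mt n t‖ ^ m ≤ (2 / t) ^ L := by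
        calc ‖Mt n t‖ ^ m ≤ (2 / t) ^ m := pow_le_pow_left₀ (norm_nonneg _) (norm_Mt ht) m
          _ ≤ (2 / t) ^ L := by
            refine pow_le_pow_right₀ ?_ hm
            rw [le_div_iff₀ ht]; linarith
      calc ‖iteratedFDeriv ℝ m (θ : V n → ℝ) (Mt n t z)‖ * ‖Mt n t‖ ^ m ≤ B * (2 / t) ^ L :=
            mul_le_mul (hBj m hm _) h2 (by positivity) (by linarith)
        _ = B * 2 ^ L / t ^ L := by rw [div_pow]; ring
    refine ((Jl.mul isOpen_univ j1 j2).2 l hl z (mem_univ _)).trans (le_of_eq ?_)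
    ring
  · have hcl : IsClosed {z : VV n | z.1 ∈ tsupport χ ∧ ‖z.1 - z.2‖ ≤ t} := by
      refine ((isClosed_tsupport χ).preimage continuous_fst).inter ?_
      exact isClosed_le (continuous_fst.sub continuous_snd).norm continuous_const
    have hsub : tsupport (fun z : VV n => χ z.1 * θ (Mt n t z)) ⊆
        {z : VV n | z.1 ∈ tsupport χ ∧ ‖z.1 - z.2‖ ≤ t} := by
      refine closure_minimal (fun z hz => ?_) hcl
      have hz' : χ z.1 * θ (Mt n t z) ≠ 0 := hz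
      refine ⟨subset_tsupport _ (left_ne_zero_of_mul hz'), ?_⟩
      have h1 : Mt n t z ∈ Function.support (θ : V n → ℝ) := right_ne_zero_of_mul hz'
      rw [θ.support_eq, mem_ball_zero_iff] at h1
      change ‖Mt n t z‖ < 1 at h1
      rw [Mt_apply, norm_smul, norm_inv, Real.norm_eq_abs, abs_of_pos ht, inv_mul_lt_iff₀ ht,
        mul_one] at h1
      exact h1.le
    exact fun z hz => ⟨c2 (hsub hz).1, (hsub hz).2⟩
  · intro z hz hzt
    show χ z.1 * θ (Mt n t z) = 1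
    rw [c4 _ (c3 hz), one_mul]
    refine θ.one_of_mem_closedBall ?_
    rw [mem_closedBall_zero_iff]
    show ‖Mt n t z‖ ≤ 1 / 2
    rw [Mt_apply, norm_smul, norm_inv, Real.norm_eq_abs, abs_of_pos ht, inv_mul_le_iff₀ ht]
    linarith
  · intro z hz
    by_contra hcon
    push Not at hcon
    have hop : IsOpen {z : VV n | ‖z.1 - z.2‖ < t / 2 ∧ z.1 ∈ Ao n a' b'} := by
      refine (isOpen_lt (continuous_fst.sub continuous_snd).norm continuous_const).inter ?_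
      exact (isOpen_Ao (n := n) a' b').preimage continuous_fst
    refine off_ts hop (fun w hw => ?_) z hcon hz
    have hw1 : w.1 ∈ Ac n a' b' := ⟨hw.2.1.le, hw.2.2.le⟩
    show χ w.1 * θ (Mt n t w) = 1
    rw [c4 _ (c3 hw1), one_mul]
    refine θ.one_of_mem_closedBall ?_
    rw [mem_closedBall_zero_iff]
    show ‖Mt n t w‖ ≤ 1 / 2
    rw [Mt_apply, norm_smul, norm_inv, Real.norm_eq_abs, abs_of_pos ht, inv_mul_le_iff₀ ht]
    have := hw.1
    linarith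

end Vale.Agent.P088.S4.H509
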