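import Vale.Agent.P088.R2.H238.S4.PB
import Vale.Agent.P088.R2.H238.S3.P3a
import Vale.Agent.P088.R2.H404.P1a
import Vale.Agent.P088.R2.H509.S4.Eta

/-!
# P088, stage 4, row P4N: the geometry of the level functions
-/

open MeasureTheory Set Filter Topology
open scoped ContDiff Matrix

noncomputable section

namespace Vale.Agent.P088.S4.H509

open Vale.Agent.P088.LR
open Vale.Agent.P088.HY (VV)
open Vale.Agent.P088.HY.T3 (Eb e0 Ao Ac iv rt_ball isOpen_Ao isClosed_Ac)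
open Vale.Agent.P088.HY.T4 (gy gx kk Oc Zq cg Lvl sq_iv sq_e0)
open Vale.Agent.P088.HY.S3 (Jl LG)
open Vale.Agent.P088.S4.H238 (th gt O1)
open Vale.Agent.P088.R2.H238.S3.P3 (sq_cd gy_cd gy_pd gy_pd2 gy_lvl sq_nn sq_cp iv_cd Ao_ne)

variable {n : ℕ}

/-! ## The radial function -/

theorem th_cd : ContDiff ℝ ∞ (th n) := by
  unfold th
  exact Real.smoothTransition.contDiff.comp
    (contDiff_const.mul (sq_cd.sub contDiff_const))

theorem th_zero {y : V n} (h : HY.sq y ≤ 51 / 50) : th n y = 0 := by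
  unfold th
  exact Real.smoothTransition.zero_of_nonpos (by linarith)

theorem th_one {y : V n} (h : 53 / 50 ≤ HY.sq y) : th n y = 1 := by
  unfold th
  exact Real.smoothTransition.one_of_one_le (by linarith)

theorem th_nonneg (y : V n) : 0 ≤ th n y := Real.smoothTransition.nonneg _

theorem th_le (y : V n) : th n y ≤ 1 := Real.smoothTransition.le_one _

theorem th_jets (n : ℕ) : ∃ T : ℝ, 1 ≤ T ∧ (∀ i y, |pd i (th n) y| ≤ T) ∧
    (∀ i j y, |pd i (pd j (th n)) y| ≤ T) ∧ ∀ i j k y, |pd i (pd j (pd k (th n))) y| ≤ T := by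
  have hc : HasCompactSupport fun y : V n => 1 - th n y := by
    refine HasCompactSupport.of_support_subset_isCompact (isCompact_closedBall (0 : V n) 2)
      fun y hy => ?_
    rw [mem_closedBall_zero_iff, pi_norm_le_iff_of_nonneg (by norm_num)]
    intro i
    by_contra h
    refine hy ?_
    push Not at h
    have h1 : 4 < HY.sq y := by
      refine lt_of_lt_of_le ?_ (sq_cp y i)
      rw [← sq_abs, ← Real.norm_eq_abs]
      nlinarith
    show 1 - th n y = 0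
    rw [th_one (by linarith), sub_self]
  obtain ⟨C, hC, hj⟩ := bdd_jets (f := fun y : V n => 1 - th n y)
    (contDiff_const.sub th_cd) hc 3
  have j0 : Jl (univ : Set (V n)) 3 (fun _ => C) fun y => 1 - th n y :=
    ⟨(contDiff_const.sub th_cd).contDiffOn, fun l hl x _ => hj l hl x⟩
  have j1 : Jl (univ : Set (V n)) 3 (fun _ => |(1 : ℝ)| + C) (th n) :=
    (Jl.sub isOpen_univ (Jl.const (O := (univ : Set (V n))) (k := 3) (1 : ℝ)) j0).congr
      isOpen_univ fun x _ => by ring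
  refine ⟨|(1 : ℝ)| + C, by rw [abs_one]; linarith, fun i y => ?_, fun i j y => ?_,
    fun i j k y => ?_⟩
  · exact ((j1.ord (by norm_num : 1 ≤ 3)).pd (k := 0) isOpen_univ i).abs (mem_univ y)
  · exact (((j1.ord (by norm_num : 2 ≤ 3)).pd (k := 1) isOpen_univ j).pd (k := 0)
      isOpen_univ i).abs (mem_univ y)
  · exact (((j1.pd (k := 2) isOpen_univ k).pd (k := 1) isOpen_univ j).pd (k := 0)
      isOpen_univ i).abs (mem_univ y)

/-! ## The level function -/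

theorem gt_cd (σ κ : ℝ) : ContDiff ℝ ∞ (gt n σ κ) := by
  unfold gt
  exact (gy_cd σ).sub (contDiff_const.mul th_cd)

theorem pd_lin {f g : V n → ℝ} {c : ℝ} (i : Fin n) (hf : ContDiff ℝ ∞ f) (hg : ContDiff ℝ ∞ g) :
    pd i (fun y => f y - c * g y) = fun y => pd i f y - c * pd i g y := by
  funext y
  have h1 : HasFDerivAt (fun y => f y - c * g y) (fderiv ℝ f y - c • fderiv ℝ g y) y :=
    (hf.differentiable (by simp) y).hasFDerivAt.sub
      ((hg.differentiable (by simp) y).hasFDerivAt.const_mul c)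
  unfold pd
  rw [h1.fderiv]
  rfl

theorem pd_cd {f : V n → ℝ} (hf : ContDiff ℝ ∞ f) (i : Fin n) : ContDiff ℝ ∞ (pd i f) := by
  unfold pd
  exact (hf.fderiv_right (m := ∞) (by simp)).clm_apply contDiff_const

/-- **The level function of the correctors.** -/
theorem gt_lvl (hn : 3 ≤ n) {σ : ℝ} (h0 : 0 < σ) (h1 : σ ≤ 1 / 10) :
    ∃ κ₀ : ℝ, 0 < κ₀ ∧ κ₀ ≤ 1 ∧ ∀ κ : ℝ, 0 ≤ κ → κ ≤ κ₀ → Lvl n 3 (σ / 2) (1 / 4) (gt n σ κ) := by
  obtain ⟨T, hT, t1, t2, t3⟩ := th_jets n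
  have hn0 : (0 : ℝ) ≤ n := Nat.cast_nonneg _
  have hd : 0 < 4 * ((n : ℝ) + 1) * T := by positivity
  refine ⟨σ / (4 * (n + 1) * T), by positivity, ?_, fun κ hκ0 hκ => ?_⟩
  · rw [div_le_one hd]
    nlinarith
  rw [le_div_iff₀ hd] at hκ
  have hκT0 : 0 ≤ κ * T := by positivity
  have hκT : κ * T ≤ 1 / 40 := by nlinarith
  have hκn : κ * T * n ≤ σ / 2 := by nlinarith
  have hl := gy_lvl hn h0 h1
  have e1 : ∀ i, pd i (gt n σ κ) = fun y => pd i (gy n σ) y - κ * pd i (th n) y := fun i =>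
    pd_lin i (gy_cd σ) th_cd
  have e2 : ∀ i j, pd i (pd j (gt n σ κ)) =
      fun y => pd i (pd j (gy n σ)) y - κ * pd i (pd j (th n)) y := fun i j => by
    rw [e1 j]; exact pd_lin i (pd_cd (gy_cd σ) j) (pd_cd th_cd j)
  have e3 : ∀ i j k, pd i (pd j (pd k (gt n σ κ))) =
      fun y => pd i (pd j (pd k (gy n σ))) y - κ * pd i (pd j (pd k (th n))) y := fun i j k => by
    rw [e2 j k]; exact pd_lin i (pd_cd (pd_cd (gy_cd σ) k) j) (pd_cd (pd_cd th_cd k) j)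
  have hk : ∀ {a : ℝ}, |a| ≤ T → |κ * a| ≤ 1 / 40 := fun {a} ha => by
    rw [abs_mul, abs_of_nonneg hκ0]
    exact (mul_le_mul_of_nonneg_left ha hκ0).trans hκT
  refine ⟨gt_cd σ κ, fun y hy i => ?_, fun y hy i j => ?_, fun y hy i j k => ?_, fun y hy => ?_,
    fun y hy ξ => ?_⟩
  · rw [e1]
    refine (abs_sub _ _).trans ?_
    have := hl.g1 y hy i
    have := hk (t1 i y)
    linarith
  · rw [e2]
    refine (abs_sub _ _).trans ?_
    have := hl.g2 y hy i j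
    have := hk (t2 i j y)
    linarith
  · rw [e3]
    refine (abs_sub _ _).trans ?_
    have := hl.g3 y hy i j k
    have := hk (t3 i j k y)
    linarith
  · obtain ⟨i, hi⟩ : ∃ i : Fin n, i = ⟨0, by omega⟩ := ⟨_, rfl⟩
    have h2 : (1 / 4 : ℝ) ≤ pd i (gt n σ κ) y ^ 2 := by
      rw [e1]
      show 1 / 4 ≤ (pd i (gy n σ) y - κ * pd i (th n) y) ^ 2
      rw [gy_pd]
      have h3 : e0 n i = 1 := by rw [hi]; unfold e0; simp
      rw [h3]
      have hb : |y i| ≤ 5 / 4 := by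
        have h2 : HY.sq (y - 0) < (5 / 4) ^ 2 := hy
        rw [sub_zero] at h2
        exact abs_le_of_sq_le_sq ((sq_cp y i).trans h2.le) (by norm_num)
      have h4 := abs_le.1 hb
      have h5 : (3 / 4 : ℝ) ≤ 1 + σ * (y i - 1) := by nlinarith
      have h6 := (abs_le.1 (hk (t1 i y))).2
      nlinarith
    exact h2.trans (Finset.single_le_sum (f := fun i => pd i (gt n σ κ) y ^ 2)
      (fun _ _ => sq_nonneg _) (Finset.mem_univ i))
  · have h2 := hl.gc y hy ξ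
    have h3 : ∑ i, ∑ j, ξ i * ξ j * pd i (pd j (gt n σ κ)) y =
        (∑ i, ∑ j, ξ i * ξ j * pd i (pd j (gy n σ)) y) -
          κ * ∑ i, ∑ j, ξ i * ξ j * pd i (pd j (th n)) y := by
      simp only [e2]
      rw [Finset.mul_sum, ← Finset.sum_sub_distrib]
      refine Finset.sum_congr rfl fun i _ => ?_
      rw [Finset.mul_sum, ← Finset.sum_sub_distrib]
      exact Finset.sum_congr rfl fun j _ => by ring
    have h4 : ∑ i, ∑ j, ξ i * ξ j * pd i (pd j (th n)) y ≤ T * (n * ∑ i, ξ i ^ 2) := by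
      have h5 : ∀ i j, ξ i * ξ j * pd i (pd j (th n)) y ≤ T * ((ξ i ^ 2 + ξ j ^ 2) / 2) := by
        intro i j
        have h6 : |ξ i * ξ j| ≤ (ξ i ^ 2 + ξ j ^ 2) / 2 := by
          rw [abs_le]
          constructor <;> nlinarith [sq_nonneg (ξ i + ξ j), sq_nonneg (ξ i - ξ j)]
        calc ξ i * ξ j * pd i (pd j (th n)) y ≤ |ξ i * ξ j * pd i (pd j (th n)) y| := le_abs_self _
          _ = |ξ i * ξ j| * |pd i (pd j (th n)) y| := abs_mul _ _
          _ ≤ ((ξ i ^ 2 + ξ j ^ 2) / 2) * T :=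
            mul_le_mul h6 (t2 i j y) (abs_nonneg _) (by positivity)
          _ = _ := by ring
      refine (Finset.sum_le_sum fun i _ => Finset.sum_le_sum fun j _ => h5 i j).trans
        (le_of_eq ?_)
      simp only [← Finset.mul_sum]
      congr 1
      simp only [add_div, Finset.sum_add_distrib, Finset.sum_const, Finset.card_univ,
        Fintype.card_fin, nsmul_eq_mul, ← Finset.mul_sum, ← Finset.sum_div]
      ring
    have h5 : 0 ≤ ∑ i, ξ i ^ 2 := Finset.sum_nonneg fun _ _ => sq_nonneg _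
    have h6 : κ * ∑ i, ∑ j, ξ i * ξ j * pd i (pd j (th n)) y ≤ σ / 2 * ∑ i, ξ i ^ 2 := by
      calc κ * ∑ i, ∑ j, ξ i * ξ j * pd i (pd j (th n)) y ≤ κ * (T * (n * ∑ i, ξ i ^ 2)) :=
            mul_le_mul_of_nonneg_left h4 hκ0
        _ = κ * T * n * ∑ i, ξ i ^ 2 := by ring
        _ ≤ _ := mul_le_mul_of_nonneg_right hκn h5
    rw [h3]
    linarith

/-! ## Lipschitz bounds -/

theorem Eb_convex (r : ℝ) : Convex ℝ (Eb (0 : V n) r) := by
  have h : ConvexOn ℝ univ (fun x : V n => HY.sq (x - 0)) := by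
    refine ⟨convex_univ, fun x _ y _ a b ha hb hab => ?_⟩
    simp only [sub_zero, smul_eq_mul]
    unfold HY.sq
    rw [Finset.mul_sum, Finset.mul_sum, ← Finset.sum_add_distrib]
    refine Finset.sum_le_sum fun i _ => ?_
    have e : (a • x + b • y) i = a * x i + b * y i := rfl
    rw [e]
    have hb' : b = 1 - a := by linarith
    subst hb'
    have : 0 ≤ a * (1 - a) * (x i - y i) ^ 2 := by positivity
    nlinarith
  have h2 := h.convex_lt (r ^ 2)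
  have e : {x : V n | x ∈ univ ∧ HY.sq (x - 0) < r ^ 2} = Eb (0 : V n) r := by
    ext x; simp [Eb]
  rwa [e] at h2

theorem lip_of {g : V n → ℝ} {M : ℝ} (hM : 0 ≤ M) (hg : ContDiff ℝ ∞ g) {r : ℝ}
    (h1 : ∀ y ∈ Eb (0 : V n) r, ∀ i, |pd i g y| ≤ M) {u v : V n} (hu : u ∈ Eb (0 : V n) r)
    (hv : v ∈ Eb (0 : V n) r) : |g u - g v| ≤ n * M * ‖u - v‖ := by
  have hf : ∀ y ∈ Eb (0 : V n) r, ‖fderiv ℝ g y‖ ≤ n * M := by
    intro y hy
    refine ContinuousLinearMap.opNorm_le_bound _ (by positivity) fun w => ?_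
    rw [HY.T4.fderiv_eq_sum, Real.norm_eq_abs]
    calc |∑ i, w i * LR.pd i g y| ≤ ∑ i, |w i * LR.pd i g y| := Finset.abs_sum_le_sum_abs _ _
      _ ≤ ∑ _i : Fin n, ‖w‖ * M := by
        refine Finset.sum_le_sum fun i _ => ?_
        rw [abs_mul]
        exact mul_le_mul (norm_le_pi_norm w i) (h1 y hy i) (abs_nonneg _) (norm_nonneg _)
      _ = n * M * ‖w‖ := by
        rw [Finset.sum_const, Finset.card_univ, Fintype.card_fin, nsmul_eq_mul]; ring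
  exact (Eb_convex r).norm_image_sub_le_of_norm_fderiv_le (𝕜 := ℝ)
    (fun y _ => hg.differentiable (by simp) y) hf hv hu

theorem nsq_le (x : V n) : ‖x‖ ^ 2 ≤ HY.sq x := by
  have h : ‖x‖ ≤ √(HY.sq x) := by
    rw [pi_norm_le_iff_of_nonneg (Real.sqrt_nonneg _)]
    intro i
    rw [Real.norm_eq_abs]
    exact Real.le_sqrt_of_sq_le (by rw [sq_abs]; exact sq_cp x i)
  calc ‖x‖ ^ 2 ≤ √(HY.sq x) ^ 2 := pow_le_pow_left₀ (norm_nonneg _) h 2
    _ = HY.sq x := Real.sq_sqrt (sq_nn x)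

theorem sq_le_n (x : V n) : HY.sq x ≤ n * ‖x‖ ^ 2 := by
  unfold HY.sq
  calc ∑ i, x i ^ 2 ≤ ∑ _i : Fin n, ‖x‖ ^ 2 := by
        refine Finset.sum_le_sum fun i _ => ?_
        rw [← sq_abs, ← Real.norm_eq_abs]
        exact pow_le_pow_left₀ (norm_nonneg _) (norm_le_pi_norm x i) 2
    _ = _ := by rw [Finset.sum_const, Finset.card_univ, Fintype.card_fin, nsmul_eq_mul]

theorem sq_iv_sub {x y : V n} (hx : HY.sq x ≠ 0) (hy : HY.sq y ≠ 0) :
    HY.sq (iv x - iv y) = HY.sq (x - y) / (HY.sq x * HY.sq y) := by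
  have h1 : HY.sq (iv x - iv y) = (∑ i, x i ^ 2) / HY.sq x ^ 2 -
      2 * (∑ i, x i * y i) / (HY.sq x * HY.sq y) + (∑ i, y i ^ 2) / HY.sq y ^ 2 := by
    conv_lhs => unfold HY.sq
    rw [Finset.mul_sum, Finset.sum_div, Finset.sum_div, Finset.sum_div,
      ← Finset.sum_sub_distrib, ← Finset.sum_add_distrib]
    refine Finset.sum_congr rfl fun i _ => ?_
    have e : (iv x - iv y) i = x i / HY.sq x - y i / HY.sq y := rfl
    rw [e]
    field_simp
    ring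
  have h2 : HY.sq (x - y) = (∑ i, x i ^ 2) - 2 * (∑ i, x i * y i) + ∑ i, y i ^ 2 := by
    conv_lhs => unfold HY.sq
    rw [Finset.mul_sum, ← Finset.sum_sub_distrib, ← Finset.sum_add_distrib]
    refine Finset.sum_congr rfl fun i _ => ?_
    have e : (x - y) i = x i - y i := rfl
    rw [e]; ring
  have ex : ∑ i, x i ^ 2 = HY.sq x := rfl
  have ey : ∑ i, y i ^ 2 = HY.sq y := rfl
  rw [h1, h2, ex, ey]
  field_simp
  ring

theorem sq_gt {x : V n} (hx : 4 / 5 < √(HY.sq x)) : 16 / 25 < HY.sq x := by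
  have h1 : √(HY.sq x) ^ 2 = HY.sq x := Real.sq_sqrt (sq_nn x)
  nlinarith

theorem iv_lip {x y : V n} (hx : 4 / 5 < √(HY.sq x)) (hy : 4 / 5 < √(HY.sq y)) :
    ‖iv x - iv y‖ ≤ 2 * (n + 1) * ‖x - y‖ := by
  have h1 := sq_gt hx
  have h2 := sq_gt hy
  have h3 : HY.sq (iv x - iv y) ≤ (2 * (n + 1) * ‖x - y‖) ^ 2 := by
    rw [sq_iv_sub (by linarith) (by linarith), div_le_iff₀ (by nlinarith)]
    have h4 := sq_le_n (x - y)
    have hn0 : (0 : ℝ) ≤ n := Nat.cast_nonneg _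
    have h5 : (16 / 25) * (16 / 25) ≤ HY.sq x * HY.sq y :=
      mul_le_mul h1.le h2.le (by norm_num) (by linarith)
    have h6 : 0 ≤ ‖x - y‖ ^ 2 := sq_nonneg _
    have h7 : (n : ℝ) ≤ (2 * (n + 1)) ^ 2 * ((16 / 25) * (16 / 25)) := by nlinarith
    calc HY.sq (x - y) ≤ n * ‖x - y‖ ^ 2 := h4
      _ ≤ ((2 * (n + 1)) ^ 2 * ((16 / 25) * (16 / 25))) * ‖x - y‖ ^ 2 :=
        mul_le_mul_of_nonneg_right h7 h6
      _ = ((2 * (n + 1)) ^ 2 * ‖x - y‖ ^ 2) * ((16 / 25) * (16 / 25)) := by ring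
      _ ≤ ((2 * (n + 1)) ^ 2 * ‖x - y‖ ^ 2) * (HY.sq x * HY.sq y) :=
        mul_le_mul_of_nonneg_left h5 (by positivity)
      _ = _ := by ring
  exact abs_le_of_sq_le_sq' ((nsq_le _).trans h3) (by positivity) |>.2

theorem iv_mem {x : V n} (hx : 4 / 5 < √(HY.sq x)) : iv x ∈ Eb (0 : V n) (5 / 4) := by
  have h1 := sq_gt hx
  show HY.sq (iv x - 0) < (5 / 4) ^ 2
  rw [sub_zero, sq_iv (by linarith), div_lt_iff₀ (by linarith)]
  linarith

/-- The Lipschitz constant of the level functions. -/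
theorem g_lip {g : V n → ℝ} (hg : ContDiff ℝ ∞ g)
    (h1 : ∀ y ∈ Eb (0 : V n) (5 / 4), ∀ i, |pd i g y| ≤ 3) {x y : V n}
    (hx : 4 / 5 < √(HY.sq x)) (hy : 4 / 5 < √(HY.sq y)) :
    |g (iv x) - g (iv y)| ≤ 6 * (n + 1) ^ 2 * ‖x - y‖ := by
  refine (lip_of (by norm_num) hg h1 (iv_mem hx) (iv_mem hy)).trans ?_
  have h2 := iv_lip hx hy
  have hn0 : (0 : ℝ) ≤ n := Nat.cast_nonneg _
  calc (n : ℝ) * 3 * ‖iv x - iv y‖ ≤ n * 3 * (2 * (n + 1) * ‖x - y‖) :=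
        mul_le_mul_of_nonneg_left h2 (by positivity)
    _ = (6 * (n * (n + 1))) * ‖x - y‖ := by ring
    _ ≤ _ := mul_le_mul_of_nonneg_right (by nlinarith) (norm_nonneg _)

theorem gx_lip' (hn : 3 ≤ n) {σ : ℝ} (h0 : 0 < σ) (h1 : σ ≤ 1 / 10) {x y : V n}
    (hx : 4 / 5 < √(HY.sq x)) (hy : 4 / 5 < √(HY.sq y)) :
    |gx n σ x - gx n σ y| ≤ 6 * (n + 1) ^ 2 * ‖x - y‖ :=
  g_lip (gy_cd σ) (fun y hy i => ((gy_lvl hn h0 h1).g1 y hy i).trans (by norm_num)) hx hy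

theorem ball_O1 {x : V n} (hx : x ∈ O1 n) : Metric.ball x (1 / (20 * (n + 1))) ⊆
    Ao n (4 / 5) 24 := by
  intro y hy
  have hn0 : (0 : ℝ) ≤ n := Nat.cast_nonneg _
  obtain ⟨h1, h2⟩ := rt_ball (by positivity : (0 : ℝ) ≤ 1 / (20 * (n + 1))) hy
  have e : ((n : ℝ) + 1) * (1 / (20 * (n + 1))) = 1 / 20 := by field_simp
  rw [e] at h1 h2
  obtain ⟨h3, h4⟩ := hx
  exact ⟨by linarith, by linarith⟩

theorem gt_LG {σ κ : ℝ} (hl : Lvl n 3 (σ / 2) (1 / 4) (gt n σ κ)) :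
    LG (O1 n) (1 / (20 * (n + 1))) (6 * (n + 1) ^ 2) (fun x => gt n σ κ (iv x)) := by
  intro x hx y hy
  exact g_lip hl.sm hl.g1 (ball_O1 hx hy).1
    (ball_O1 hx (Metric.mem_ball_self (by positivity))).1

theorem gx_LG (hn : 3 ≤ n) {σ : ℝ} (h0 : 0 < σ) (h1 : σ ≤ 1 / 10) :
    LG (O1 n) (1 / (20 * (n + 1))) (6 * (n + 1) ^ 2) (gx n σ) := by
  intro x hx y hy
  exact gx_lip' hn h0 h1 (ball_O1 hx hy).1
    (ball_O1 hx (Metric.mem_ball_self (by positivity))).1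

theorem gt_cont (σ κ : ℝ) : ContinuousOn (fun x => gt n σ κ (iv x)) (Ao n (4 / 5) 24) := by
  refine (gt_cd σ κ).continuous.comp_continuousOn fun x hx => ?_
  exact (iv_cd (Ao_ne (by norm_num) hx)).continuousAt.continuousWithinAt

/-! ## Values -/

theorem gt_le {σ κ : ℝ} (hκ : 0 ≤ κ) (x : V n) : gt n σ κ (iv x) ≤ gx n σ x := by
  have := mul_nonneg hκ (th_nonneg (iv x))
  show gy n σ (iv x) - κ * th n (iv x) ≤ gy n σ (iv x)
  linarith

theorem gt_ge {σ κ : ℝ} (hκ : 0 ≤ κ) (x : V n) : gx n σ x - κ ≤ gt n σ κ (iv x) := by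
  have := mul_le_mul_of_nonneg_left (th_le (iv x)) hκ
  show gy n σ (iv x) - κ ≤ gy n σ (iv x) - κ * th n (iv x)
  linarith

theorem gt_out {σ κ : ℝ} {x : V n} (hx : 1 ≤ √(HY.sq x)) : gt n σ κ (iv x) = gx n σ x := by
  have h1 : √(HY.sq x) ^ 2 = HY.sq x := Real.sq_sqrt (sq_nn x)
  have h2 : 1 ≤ HY.sq x := by nlinarith
  show gy n σ (iv x) - κ * th n (iv x) = gy n σ (iv x)
  rw [th_zero, mul_zero, sub_zero]
  rw [sq_iv (by linarith), div_le_iff₀ (by linarith)]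
  linarith

theorem gt_in {σ κ : ℝ} {x : V n} (hx0 : 0 < √(HY.sq x)) (hx : √(HY.sq x) ≤ 96 / 100) :
    gt n σ κ (iv x) = gx n σ x - κ := by
  have h1 : √(HY.sq x) ^ 2 = HY.sq x := Real.sq_sqrt (sq_nn x)
  have h2 : 0 < HY.sq x := by nlinarith
  have h3 : HY.sq x ≤ (96 / 100) ^ 2 := by nlinarith
  show gy n σ (iv x) - κ * th n (iv x) = gy n σ (iv x) - κ
  rw [th_one, mul_one]
  rw [sq_iv h2.ne', le_div_iff₀ h2]
  linarith

/-- The first coordinate. -/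
theorem gy_form (hn : 1 ≤ n) (σ : ℝ) (y : V n) : ∃ a : ℝ, |a| ≤ √(HY.sq y) ∧
    gy n σ y = a - 1 + σ / 2 * (√(HY.sq y) ^ 2 - 2 * a + 1) := by
  have h1 : ∑ i, y i * e0 n i = y ⟨0, by omega⟩ := by
    rw [Finset.sum_eq_single (⟨0, by omega⟩ : Fin n)]
    · simp [e0]
    · intro b _ hb
      have : b.val ≠ 0 := fun h => hb (Fin.ext h)
      simp [e0, this]
    · intro h; exact absurd (Finset.mem_univ _) h
  refine ⟨y ⟨0, by omega⟩, Real.le_sqrt_of_sq_le (by rw [sq_abs]; exact sq_cp y _), ?_⟩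
  have h2 : HY.sq (y - e0 n) = HY.sq y - 2 * (∑ i, y i * e0 n i) + 1 := by
    rw [← sq_e0 hn]
    unfold HY.sq
    rw [Finset.mul_sum, ← Finset.sum_sub_distrib, ← Finset.sum_add_distrib]
    refine Finset.sum_congr rfl fun i _ => ?_
    have e : (y - e0 n) i = y i - e0 n i := rfl
    rw [e]; ring
  unfold gy
  rw [h2, h1, Real.sq_sqrt (sq_nn y)]

theorem rt_iv {x : V n} (hx : 0 < √(HY.sq x)) : √(HY.sq (iv x)) = 1 / √(HY.sq x) := by
  have h0 : HY.sq x ≠ 0 := by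
    intro h; rw [h, Real.sqrt_zero] at hx; exact lt_irrefl _ hx
  rw [sq_iv h0, Real.sqrt_div' _ (sq_nn x), Real.sqrt_one]

theorem gx_abs (hn : 1 ≤ n) {σ : ℝ} (h0 : 0 ≤ σ) (h1 : σ ≤ 1 / 10) {x : V n}
    (hx : 4 / 5 ≤ √(HY.sq x)) : |gx n σ x| ≤ 3 := by
  obtain ⟨a, ha, e⟩ := gy_form hn σ (iv x)
  have h2 : √(HY.sq (iv x)) ≤ 5 / 4 := by
    rw [rt_iv (by linarith), div_le_iff₀ (by linarith)]; linarith
  have h3 : 0 ≤ √(HY.sq (iv x)) := Real.sqrt_nonneg _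
  generalize √(HY.sq (iv x)) = s at *
  have ha' := abs_le.1 ha
  show |gy n σ (iv x)| ≤ 3
  rw [e, abs_le]
  have h4 : 0 ≤ s ^ 2 - 2 * a + 1 := by nlinarith [sq_nonneg (s - 1)]
  have h5 : s ^ 2 - 2 * a + 1 ≤ 6 := by nlinarith
  constructor <;> nlinarith

theorem gx_le_half (hn : 1 ≤ n) {σ : ℝ} (_h0 : 0 ≤ σ) (h1 : σ ≤ 1 / 10) {x : V n}
    (hx : 4 / 5 ≤ √(HY.sq x)) : gx n σ x ≤ 1 / 2 := by
  obtain ⟨a, ha, e⟩ := gy_form hn σ (iv x)
  have h2 : √(HY.sq (iv x)) ≤ 5 / 4 := by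
    rw [rt_iv (by linarith), div_le_iff₀ (by linarith)]; linarith
  have h3 : 0 ≤ √(HY.sq (iv x)) := Real.sqrt_nonneg _
  generalize √(HY.sq (iv x)) = s at *
  have ha' := abs_le.1 ha
  show gy n σ (iv x) ≤ 1 / 2
  rw [e]
  have h4 : (1 - σ) * a ≤ (1 - σ) * s := mul_le_mul_of_nonneg_left ha'.2 (by linarith)
  have h5 : σ / 2 * (s - 1) ^ 2 ≤ 1 / 20 * 1 :=
    mul_le_mul (by linarith) (by nlinarith) (sq_nonneg _) (by norm_num)
  nlinarith

theorem gx_far (hn : 1 ≤ n) {σ : ℝ} (_h0 : 0 ≤ σ) (h1 : σ ≤ 1 / 10) {x : V n}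
    (hx : 8 ≤ √(HY.sq x)) : gx n σ x ≤ -(4 / 5) := by
  obtain ⟨a, ha, e⟩ := gy_form hn σ (iv x)
  have h2 : √(HY.sq (iv x)) ≤ 1 / 8 := by
    rw [rt_iv (by linarith), div_le_iff₀ (by linarith)]; linarith
  have h3 : 0 ≤ √(HY.sq (iv x)) := Real.sqrt_nonneg _
  generalize √(HY.sq (iv x)) = s at *
  have ha' := abs_le.1 ha
  show gy n σ (iv x) ≤ -(4 / 5)
  rw [e]
  have h4 : (1 - σ) * a ≤ (1 - σ) * s := mul_le_mul_of_nonneg_left ha'.2 (by linarith)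
  have h5 : σ / 2 * (s - 1) ^ 2 ≤ 1 / 20 * 1 :=
    mul_le_mul (by linarith) (by nlinarith) (sq_nonneg _) (by norm_num)
  nlinarith

/-! ## The annulus -/

theorem norm_Ao {a b : ℝ} {x : V n} (hx : x ∈ Ao n a b) : ‖x‖ ≤ b := by
  have h : ‖x‖ ≤ √(HY.sq x) := Real.le_sqrt_of_sq_le (nsq_le x)
  exact h.trans hx.2.le

theorem vol_Ao (n : ℕ) (a b : ℝ) : ∃ v : ℝ, 0 ≤ v ∧
    volume (Ao n a b) ≤ ENNReal.ofReal (v ^ 2) := by
  have hsub : Ao n a b ⊆ Metric.closedBall (0 : V n) b := fun x hx => by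
    rw [mem_closedBall_zero_iff]; exact norm_Ao hx
  have hfin : volume (Metric.closedBall (0 : V n) b) < ⊤ :=
    (isCompact_closedBall (0 : V n) b).measure_lt_top
  refine ⟨√(volume (Metric.closedBall (0 : V n) b)).toReal, Real.sqrt_nonneg _, ?_⟩
  rw [Real.sq_sqrt ENNReal.toReal_nonneg, ENNReal.ofReal_toReal hfin.ne]
  exact measure_mono hsub

end Vale.Agent.P088.S4.H509
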