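import Vale.Agent.P088.R2.H509.S4.Geo

/-!
# P088, stage 4, row P4N: the far values and the value of the form
-/

open MeasureTheory Set Filter Topology
open scoped ContDiff Matrix

noncomputable section

namespace Vale.Agent.P088.S4.H509

open Vale.Agent.P088.LR Vale.Agent.P088.LR.U Vale.Agent.P088.LR.H158
open Vale.Agent.P088.PJ
open Vale.Agent.P088.HY (VV)
open Vale.Agent.P088.HY.T3 (Eb e0 Ao Ac iv rt_ball isOpen_Ao isClosed_Ac)
open Vale.Agent.P088.HY.T4 (gy gx kk Oc Zq cg Lvl)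
open Vale.Agent.P088.S4.H238 (th gt EE O1 K2D ED KO)
open Vale.Agent.P088.R2.H238.S3.P3 (sq_nn sq_cd)

variable {n N : ℕ}

/-! ## The data in the unit ball -/

theorem isOpen_Eb' (r : ℝ) : IsOpen (Eb (0 : V n) r) :=
  isOpen_lt (sq_cd.continuous.comp (continuous_id.sub continuous_const)) continuous_const

theorem pdm_zero {U : Set (V n)} (hU : IsOpen U) {F : MC n N} (hF : ∀ y ∈ U, F y = 0) {x : V n}
    (hx : x ∈ U) (i : Fin n) : pdm i F x = 0 := by
  ext a b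
  show fderiv ℝ (fun y => F y a b) x (Pi.single i 1) = 0
  have h : (fun y => F y a b) =ᶠ[𝓝 x] fun _ => 0 := by
    filter_upwards [hU.mem_nhds hx] with y hy
    rw [hF y hy]; rfl
  rw [h.fderiv_eq]; simp

section unit

variable {k : ℕ} {ε : ℝ} {d : PD n N} {G : Set (V n)}

theorem unit24 {x : V n} (hx : x ∈ Eb (0 : V n) 1) : x ∈ Eb (0 : V n) 24 := by
  have h1 : HY.sq (x - 0) < 1 ^ 2 := hx
  show HY.sq (x - 0) < 24 ^ 2
  linarith

theorem D_zero (h : NrmN k ε d G) {x : V n} (hx : x ∈ Eb (0 : V n) 1) (a : Fin n) :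
    d.D a x = 0 := h.rp.rl.oD a x (unit24 hx) fun h' => h' (h.b1 hx)

theorem s_eq (h : NrmN k ε d G) {x : V n} (hx : x ∈ Eb (0 : V n) 1) : d.s₂ x = d.s₁ x :=
  h.rp.rl.os x (unit24 hx) fun h' => h' (h.b1 hx)

theorem P_eq (h : NrmN k ε d G) {x : V n} (hx : x ∈ Eb (0 : V n) 1) : d.P₂ x = d.P₁ x :=
  h.rp.rl.oP x (unit24 hx) fun h' => h' (h.b1 hx)

theorem VD_zero (h : NrmN k ε d G) {x : V n} (hx : x ∈ Eb (0 : V n) 1) (i j : Fin n) :
    VD d i j x = 0 := by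
  have hDb : ∀ b, ∀ y ∈ Eb (0 : V n) 1, Db d.P₂ d.Γ d.D b y = 0 := by
    intro b y hy
    unfold Db
    simp [D_zero h hy]
  have hZ : ∀ i j, Zt d.s₁ d.s₂ d.P₁ d.P₂ i j x = 0 := by
    intro i j
    unfold Zt TP
    rw [s_eq h hx, P_eq h hx, sub_self]
  have hp : ∀ i j b, pdm i (fun y => (d.s₂ y i j : ℂ) • Db d.P₂ d.Γ d.D b y) x = 0 := by
    intro i j b
    refine pdm_zero (isOpen_Eb' 1) (fun y hy => ?_) hx i
    rw [hDb b y hy, smul_zero]
  have hVR : ∀ j b, VR d.s₁ d.s₂ d.τ d.P₁ d.P₂ d.G₂ d.β d.Γ d.D j b x = 0 := by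
    intro j b
    unfold VR
    simp only [hZ, hp, hDb _ x hx, mul_zero, smul_zero, Finset.sum_const_zero, zero_mul, sub_zero,
      add_zero]
  unfold VD VS
  simp only [hVR, add_zero, smul_zero]

theorem tn_zero (h : NrmN k ε d G) {x : V n} (hx : x ∈ Eb (0 : V n) 1) :
    tn (tfC d.s₁ (VD d)) x = 0 := by
  unfold tn tfC ipC nq
  simp [VD_zero h hx]

theorem U1_zero (h : NrmN k ε d G) {x : V n} (hx : x ∈ Eb (0 : V n) 1) : U1 d x = 0 := by
  have hp : ∀ i c, pdm i (d.D c) x = 0 := fun i c =>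
    pdm_zero (isOpen_Eb' 1) (fun y hy => D_zero h hy c) hx i
  unfold U1
  simp [s_eq h hx, P_eq h hx, D_zero h hx, hp]

theorem cl0 {F : Type*} [NormedAddCommGroup F] [NormedSpace ℝ F] {f : V n → F}
    (h : Cl k ε f) (x : V n) : ‖f x‖ ≤ ε := by
  have := h 0 (Nat.zero_le _) x
  rwa [norm_iteratedFDeriv_zero] at this

theorem cl1 {F : Type*} [NormedAddCommGroup F] [NormedSpace ℝ F] {f : V n → F}
    (h : Cl k ε f) (hk : 1 ≤ k) (x : V n) (i : Fin n) : ‖pd i f x‖ ≤ ε := by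
  have h1 := h 1 hk x
  rw [← zero_add 1, ← norm_iteratedFDeriv_fderiv, norm_iteratedFDeriv_zero] at h1
  unfold pd
  calc ‖fderiv ℝ f x (Pi.single i 1)‖ ≤ ‖fderiv ℝ f x‖ * ‖(Pi.single i (1 : ℝ) : V n)‖ :=
        (fderiv ℝ f x).le_opNorm _
    _ ≤ ε * 1 := by
        refine mul_le_mul h1 ?_ (norm_nonneg _) ((norm_nonneg _).trans h1)
        rw [Pi.norm_single]; simp
    _ = ε := mul_one _

/-- The bound of `U1`. -/
def cU (n N : ℕ) : ℝ := n * (n * 2) + N * (N * 2) + n * (N * (N * (1 + n * 1)))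

theorem cU_nonneg (n N : ℕ) : 0 ≤ cU n N := by unfold cU; positivity

theorem U1_nonneg (x : V n) : 0 ≤ U1 d x := by unfold U1; positivity

theorem U1_le {O Kc : Set (V n)} (h : RLP k ε O Kc d) (hk : 1 ≤ k) (hε : ε ≤ 1) (x : V n) :
    U1 d x ≤ cU n N := by
  have h1 : ∀ i j, |d.s₂ x i j - d.s₁ x i j| ≤ 2 := by
    intro i j
    have a1 := cl0 (h.rl.d₁.cs i j) x
    have a2 := cl0 (h.rl.d₂.cs i j) x
    rw [Real.norm_eq_abs] at a1 a2
    have e : d.s₂ x i j - d.s₁ x i j = (d.s₂ x i j - (1 : Matrix (Fin n) (Fin n) ℝ) i j) -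
        (d.s₁ x i j - (1 : Matrix (Fin n) (Fin n) ℝ) i j) := by ring
    rw [e]
    exact (abs_sub _ _).trans (by linarith)
  have h2 : ∀ a b, ‖d.P₂ x a b - d.P₁ x a b‖ ≤ 2 := by
    intro a b
    have a1 := cl0 (h.rl.d₁.cP a b) x
    have a2 := cl0 (h.rl.d₂.cP a b) x
    have e : d.P₂ x a b - d.P₁ x a b = (d.P₂ x - 1) a b - (d.P₁ x - 1) a b := by
      rw [Matrix.sub_apply, Matrix.sub_apply]; ring
    rw [e]
    exact (norm_sub_le _ _).trans (by linarith)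
  have h3 : ∀ c a b, ‖d.D c x a b‖ ≤ 1 := fun c a b => (cl0 (h.rl.cD c a b) x).trans hε
  have h4 : ∀ c a b i, ‖pdm i (d.D c) x a b‖ ≤ 1 := fun c a b i =>
    (cl1 (h.rl.cD c a b) hk x i).trans hε
  unfold U1 cU
  refine add_le_add (add_le_add ?_ ?_) ?_
  · refine (Finset.sum_le_sum fun i _ => Finset.sum_le_sum fun j _ => h1 i j).trans (le_of_eq ?_)
    simp
  · refine (Finset.sum_le_sum fun i _ => Finset.sum_le_sum fun j _ => h2 i j).trans (le_of_eq ?_)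
    simp
  · refine (Finset.sum_le_sum fun c _ => Finset.sum_le_sum fun a _ => Finset.sum_le_sum fun b _ =>
      add_le_add (h3 c a b) (Finset.sum_le_sum fun i _ => h4 c a b i)).trans (le_of_eq ?_)
    simp only [Finset.sum_const, Finset.card_univ, Fintype.card_fin, nsmul_eq_mul]

end unit

/-! ## Numbers -/

theorem rpow_exp_bd {c C : ℝ} (hc : 0 < c) (hC : 0 ≤ C) :
    ∃ B : ℝ, 0 ≤ B ∧ ∀ R : ℝ, 1 ≤ R → R ^ C * Real.exp (-(c * R)) ≤ B := by
  have hC1 : 0 < C + 1 := by linarith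
  refine ⟨Real.exp ((C + 1) * Real.log ((C + 1) / c)), (Real.exp_pos _).le, fun R hR => ?_⟩
  have hR0 : 0 < R := by linarith
  have h1 : R ^ C ≤ R ^ (C + 1) := Real.rpow_le_rpow_of_exponent_le hR (by linarith)
  have h2 : R ^ (C + 1) = Real.exp ((C + 1) * Real.log R) := by
    rw [Real.rpow_def_of_pos hR0, mul_comm]
  have h3 : Real.log R = Real.log (c * R / (C + 1)) + Real.log ((C + 1) / c) := by
    rw [← Real.log_mul (by positivity) (by positivity)]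
    congr 1
    field_simp
  have h4 : Real.log (c * R / (C + 1)) ≤ c * R / (C + 1) - 1 :=
    Real.log_le_sub_one_of_pos (by positivity)
  have h5 : (C + 1) * (c * R / (C + 1)) = c * R := by field_simp
  calc R ^ C * Real.exp (-(c * R)) ≤ Real.exp ((C + 1) * Real.log R) * Real.exp (-(c * R)) :=
        mul_le_mul_of_nonneg_right (h1.trans h2.le) (Real.exp_pos _).le
    _ = Real.exp ((C + 1) * Real.log R + -(c * R)) := (Real.exp_add _ _).symm
    _ ≤ Real.exp ((C + 1) * Real.log ((C + 1) / c)) := by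
        refine Real.exp_le_exp.2 ?_
        rw [h3]
        nlinarith

theorem EE_nonneg (σ κ Nu R Gs : ℝ) (x : V n) : 0 ≤ EE n σ κ Nu R Gs x := (Real.exp_pos _).le

theorem EE_far (hn : 1 ≤ n) {σ κ Nu R Gs : ℝ} (h0 : 0 ≤ σ) (h1 : σ ≤ 1 / 10) (hκ : 0 ≤ κ)
    (hNu : 0 ≤ Nu) (hR : 0 ≤ R) (hG : -(1 / 10) ≤ Gs) {x : V n} (hx : 8 ≤ √(HY.sq x)) :
    EE n σ κ Nu R Gs x ≤ Real.exp (-(7 / 10 * Nu * R)) := by
  have h2 := gt_le (n := n) (σ := σ) hκ x
  have h3 := gx_far hn h0 h1 hx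
  unfold EE
  refine Real.exp_le_exp.2 ?_
  have h4 : gt n σ κ (iv x) - Gs ≤ -(7 / 10) := by linarith
  have h5 := mul_le_mul_of_nonneg_left h4 (mul_nonneg hNu hR)
  nlinarith

theorem cg_far (hn : 1 ≤ n) {σ R kap Gs : ℝ} (h0 : 0 ≤ σ) (h1 : σ ≤ 1 / 10)
    (hR : 0 ≤ R) (hG : -(1 / 10) ≤ Gs) (hk : 1 ≤ kap) (hk1 : kap ≤ Real.exp R) {x : V n}
    (hx : 8 ≤ √(HY.sq x)) : cg n σ R kap Gs x = 0 := by
  have h3 := gx_far hn h0 h1 hx
  have h4 : Real.log kap ≤ R := by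
    rw [Real.log_le_iff_le_exp (by linarith)]; exact hk1
  have h5 : 0 ≤ Real.log kap := Real.log_nonneg hk
  unfold cg
  refine Real.smoothTransition.zero_of_nonpos (div_nonpos_of_nonpos_of_nonneg ?_ (by positivity))
  have h6 : R * (gx n σ x - Gs) ≤ R * (-(7 / 10)) := mul_le_mul_of_nonneg_left (by linarith) hR
  linarith

/-- The factor of the corrector bound. -/
theorem num_A {ν D s C3 B R kap δ η₁ : ℝ} (_hν : 0 < ν) (hD : 0 ≤ D) (hs : s ≤ 1)
    (hC3 : 0 ≤ C3) (hη : η₁ ≤ ν / 20) (hR : 1 ≤ R) (hk : 1 ≤ kap)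
    (hk1 : kap ≤ Real.exp (η₁ * R)) (hδ0 : 0 ≤ δ) (hδ : δ ≤ 1)
    (hB : R ^ C3 * Real.exp (-(3 / 20 * ν * R)) ≤ B) :
    C3 * R ^ C3 * kap ^ s * δ * Real.exp (-(7 / 10 * (ν + D) * R)) ≤
      C3 * B * Real.exp (-(ν * R / 2)) := by
  have hR0 : 0 < R := by linarith
  have hk0 : 0 < kap := by linarith
  have h1 : kap ^ s ≤ Real.exp (ν / 20 * R) := by
    calc kap ^ s ≤ kap ^ (1 : ℝ) := Real.rpow_le_rpow_of_exponent_le hk hs
      _ = kap := Real.rpow_one _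
      _ ≤ Real.exp (η₁ * R) := hk1
      _ ≤ Real.exp (ν / 20 * R) := Real.exp_le_exp.2 (mul_le_mul_of_nonneg_right hη hR0.le)
  have h2 : Real.exp (ν / 20 * R) * Real.exp (-(7 / 10 * (ν + D) * R)) ≤
      Real.exp (-(3 / 20 * ν * R)) * Real.exp (-(ν * R / 2)) := by
    rw [← Real.exp_add, ← Real.exp_add]
    refine Real.exp_le_exp.2 ?_
    have : 0 ≤ D * R := by positivity
    nlinarith
  have h3 : 0 ≤ C3 * R ^ C3 := by positivity
  calc C3 * R ^ C3 * kap ^ s * δ * Real.exp (-(7 / 10 * (ν + D) * R))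
      ≤ C3 * R ^ C3 * Real.exp (ν / 20 * R) * 1 * Real.exp (-(7 / 10 * (ν + D) * R)) := by
        refine mul_le_mul_of_nonneg_right (mul_le_mul (mul_le_mul_of_nonneg_left h1 h3) hδ hδ0
          (by positivity)) (Real.exp_pos _).le
    _ = C3 * R ^ C3 * (Real.exp (ν / 20 * R) * Real.exp (-(7 / 10 * (ν + D) * R))) := by ring
    _ ≤ C3 * R ^ C3 * (Real.exp (-(3 / 20 * ν * R)) * Real.exp (-(ν * R / 2))) :=
        mul_le_mul_of_nonneg_left h2 h3
    _ = C3 * (R ^ C3 * Real.exp (-(3 / 20 * ν * R))) * Real.exp (-(ν * R / 2)) := by ring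
    _ ≤ C3 * B * Real.exp (-(ν * R / 2)) :=
        mul_le_mul_of_nonneg_right (mul_le_mul_of_nonneg_left hB hC3) (Real.exp_pos _).le

/-! ## Nearby points -/

theorem rt_near {x y : V n} {R : ℝ} (hR : 100 * (n + 1) ≤ R) (hxy : ‖x - y‖ ≤ 1 / R ^ 2) :
    √(HY.sq x) - 1 / 50 ≤ √(HY.sq y) ∧ √(HY.sq y) ≤ √(HY.sq x) + 1 / 50 := by
  have hn0 : (0 : ℝ) ≤ n := Nat.cast_nonneg _
  have hR1 : 1 ≤ R := by linarith
  have hR0 : 0 < R := by linarith
  have hb : y ∈ Metric.ball x (2 / R ^ 2) := by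
    rw [Metric.mem_ball, dist_comm, dist_eq_norm]
    refine hxy.trans_lt ?_
    exact div_lt_div_of_pos_right (by norm_num) (by positivity)
  obtain ⟨h1, h2⟩ := rt_ball (by positivity) hb
  have h3 : ((n : ℝ) + 1) * (2 / R ^ 2) ≤ 1 / 50 := by
    rw [mul_div_assoc', div_le_iff₀ (by positivity)]
    nlinarith
  exact ⟨by linarith, by linarith⟩

/-! ## The far values -/

theorem fa_N (hn : 1 ≤ n) {d : PD n N} {σ κ Nu R Gs A : ℝ} {k2 : Fin n → Fin n → MC n N}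
    {η : VV n → ℝ} {K0 : KC n N} (h0 : 0 ≤ σ) (h1 : σ ≤ 1 / 10) (hκ : 0 ≤ κ)
    (hNu : 0 ≤ Nu) (hR : 100 * (n + 1) ≤ R) (hG : -(1 / 10) ≤ Gs) (hA : 0 ≤ A)
    (hE : ED n (1 / R ^ 2) η) (hK : KO d σ κ Nu R Gs A k2 η K0) {x y : V n}
    (hxy : 9 ≤ √(HY.sq x) ∨ 9 ≤ √(HY.sq y)) (a' b' : Fin N) :
    ‖K0 (x, y) a' b'‖ ≤ 2 * (A * Real.exp (-(7 / 10 * Nu * R))) := by
  have hn0 : (0 : ℝ) ≤ n := Nat.cast_nonneg _
  have hR0 : 0 < R := by linarith
  by_cases hz : ((x, y) : VV n) ∈ tsupport η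
  · obtain ⟨t1, t2⟩ := hE.ts _ hz
    obtain ⟨r1, r2⟩ := rt_near hR t2
    have hx1 : x ∈ O1 n := ⟨by linarith [t1.1], by linarith [t1.2]⟩
    have hy1 : y ∈ O1 n := by
      have a1 := t1.1
      have a2 := t1.2
      change 92 / 100 < √(HY.sq x) at a1
      change √(HY.sq x) < 14 at a2
      exact ⟨by linarith, by linarith⟩
    have hx8 : 8 ≤ √(HY.sq x) := by rcases hxy with h | h <;> linarith
    have hy8 : 8 ≤ √(HY.sq y) := by rcases hxy with h | h <;> linarith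
    have b1 := EE_far hn h0 h1 hκ hNu hR0.le hG hx8
    have b2 := EE_far hn h0 h1 hκ hNu hR0.le hG hy8
    refine (hK.bd (x, y) ⟨hx1, hy1⟩ a' b').trans ?_
    calc A * (EE n σ κ Nu R Gs x + EE n σ κ Nu R Gs y) ≤
          A * (Real.exp (-(7 / 10 * Nu * R)) + Real.exp (-(7 / 10 * Nu * R))) :=
          mul_le_mul_of_nonneg_left (add_le_add b1 b2) hA
      _ = _ := by ring
  · rw [hK.z0 _ hz, Matrix.zero_apply, norm_zero]
    positivity

/-! ## The value of the form -/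

theorem pr_N (hn : 1 ≤ n) {k : ℕ} {ε : ℝ} {d : PD n N} {G : Set (V n)} (hk : 1 ≤ k) (hε : ε ≤ 1)
    (hd : NrmN k ε d G) {σ κ Nu R kap Gs A q A' : ℝ} {L : ℕ} {k2 : Fin n → Fin n → MC n N}
    {η : VV n → ℝ} {K0 : KC n N} (h0 : 0 ≤ σ) (h1 : σ ≤ 1 / 10) (hκ : 0 ≤ κ)
    (hNu : 0 ≤ Nu) (hR : 1 ≤ R) (hG : -(1 / 10) ≤ Gs) (hA : 0 ≤ A) (hkap : 1 ≤ kap)
    (hkap1 : kap ≤ Real.exp R) (hK2 : K2D d σ Nu q A' R kap Gs L k2)
    (hE : ED n (1 / R ^ 2) η) (hK : KO d σ κ Nu R Gs A k2 η K0)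
    {χ : V n → ℝ} (c1 : ContDiff ℝ ∞ χ) (c2 : ∀ x ∉ Ac n (998 / 1000) 12, χ x = 0)
    (c3 : ∀ x ∈ Ao n (999 / 1000) 11, χ x = 1) {B : ℝ} (hB : ∀ i x, |pd i χ x| ≤ B) :
    ‖(∫ x, (χ x : ℂ) * dgD d K0 x) - (ItN d σ Nu R kap Gs : ℂ)‖ ≤
      A * (n * B * (cU n N * Real.exp (-(7 / 10 * Nu * R))) *
        (volume (Metric.closedBall (0 : V n) 12)).toReal) := by
  have hR0 : 0 < R := by linarith
  have hB0 : 0 ≤ B := (abs_nonneg _).trans (hB ⟨0, by omega⟩ 0)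
  have hcl : IsClosed (Ac n (998 / 1000) 12) := isClosed_Ac _ _
  have hts : tsupport χ ⊆ Ac n (998 / 1000) 12 := by
    refine closure_minimal (fun x hx => ?_) hcl
    by_contra h
    exact hx (c2 x h)
  have hcs : HasCompactSupport χ :=
    (HY.T3.isCompact_Ac (n := n) (998 / 1000) 12).of_isClosed_subset (isClosed_tsupport χ) hts
  have hO1 : tsupport χ ⊆ O1 n := fun x hx =>
    ⟨by linarith [(hts hx).1], by linarith [(hts hx).2]⟩
  have hη : ∀ p ∈ tsupport χ, ∀ᶠ z in 𝓝 ((p, p) : VV n), η z = 1 := by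
    intro p hp
    have o1 : IsOpen {z : VV n | ‖z.1 - z.2‖ < 1 / R ^ 2 / 2 ∧ z.1 ∈ Ao n (95 / 100) 13} := by
      refine (isOpen_lt (continuous_fst.sub continuous_snd).norm continuous_const).inter ?_
      exact (isOpen_Ao (n := n) (95 / 100) 13).preimage continuous_fst
    have m1 : ((p, p) : VV n) ∈
        {z : VV n | ‖z.1 - z.2‖ < 1 / R ^ 2 / 2 ∧ z.1 ∈ Ao n (95 / 100) 13} := by
      refine ⟨?_, ⟨by linarith [(hts hp).1], by linarith [(hts hp).2]⟩⟩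
      show ‖p - p‖ < 1 / R ^ 2 / 2
      rw [sub_self, norm_zero]
      positivity
    filter_upwards [o1.mem_nhds m1] with z hz
    exact hE.one z ⟨hz.2.1.le, hz.2.2.le⟩ hz.1.le
  have key := hK.pr χ c1 hcs hO1 hη
  -- the main term
  let f : V n → ℝ := fun x => cg n σ R kap Gs x ^ 2 * tn (tfC d.s₁ (VD d)) x *
    Real.exp (2 * (Nu * R * (gx n σ x - Gs)))
  have e1 : ∫ p, (χ p : ℂ) * ∑ i, ∑ j, (VD d i j p * k2 i j p).trace =
      -((∫ p, χ p * f p : ℝ) : ℂ) := by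
    rw [← integral_complex_ofReal, ← integral_neg]
    refine integral_congr_ae (ae_of_all _ fun p => ?_)
    show (χ p : ℂ) * ∑ i, ∑ j, (VD d i j p * k2 i j p).trace = -((χ p * f p : ℝ) : ℂ)
    by_cases hp : p ∈ Ac n (99 / 100) 12
    · rw [hK2.tr p hp]
      push_cast
      show (χ p : ℂ) * -((cg n σ R kap Gs p : ℂ) ^ 2 * (tn (tfC d.s₁ (VD d)) p : ℂ) *
        Complex.exp (2 * (Nu * R * (gx n σ p - Gs)))) = -((χ p : ℂ) * (f p : ℂ))
      simp only [f]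
      push_cast
      ring
    · have hp' : p ∉ Ac n (998 / 1000) 12 := fun h =>
        hp ⟨by linarith [h.1], h.2⟩
      rw [c2 p hp']; simp
  have e2 : ItN d σ Nu R kap Gs = ∫ p, χ p * f p := by
    unfold ItN
    rw [← integral_indicator (isClosed_Ac (n := n) _ _).measurableSet]
    refine integral_congr_ae (ae_of_all _ fun p => ?_)
    show (Ac n (99 / 100) 12).indicator f p = χ p * f p
    by_cases hp : p ∈ Ac n (99 / 100) 12
    · rw [indicator_of_mem hp]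
      by_cases h2 : √(HY.sq p) ≤ 999 / 1000
      · have h3 : p ∈ Eb (0 : V n) 1 := by
          show HY.sq (p - 0) < 1 ^ 2
          rw [sub_zero]
          have h4 : √(HY.sq p) ^ 2 = HY.sq p := Real.sq_sqrt (sq_nn p)
          have h5 : 0 ≤ √(HY.sq p) := Real.sqrt_nonneg _
          nlinarith
        have : f p = 0 := by
          simp only [f]
          rw [tn_zero hd h3]; ring
        rw [this, mul_zero]
      · by_cases h3 : 11 ≤ √(HY.sq p)
        · have : f p = 0 := by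
            simp only [f]
            rw [cg_far hn h0 h1 hR0.le hG hkap hkap1 (by linarith)]; ring
          rw [this, mul_zero]
        · push Not at h2 h3
          rw [c3 p ⟨h2, h3⟩, one_mul]
    · rw [indicator_of_notMem hp]
      have hp' : p ∉ Ac n (998 / 1000) 12 := fun h =>
        hp ⟨by linarith [h.1], h.2⟩
      rw [c2 p hp', zero_mul]
  rw [e1, ← e2, ← sub_eq_add_neg] at key
  refine key.trans (mul_le_mul_of_nonneg_left ?_ hA)
  -- the bound of the error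
  have hfin : volume (Metric.closedBall (0 : V n) 12) < ⊤ :=
    (isCompact_closedBall (0 : V n) 12).measure_lt_top
  have hM0 : 0 ≤ n * B * (cU n N * Real.exp (-(7 / 10 * Nu * R))) := by
    have := cU_nonneg n N
    positivity
  have hpt : ∀ p, ∑ i, |pd i χ p| * (U1 d p * EE n σ κ Nu R Gs p) ≤
      (Metric.closedBall (0 : V n) 12).indicator
        (fun _ => n * B * (cU n N * Real.exp (-(7 / 10 * Nu * R)))) p := by
    intro p
    have hz : ∀ U : Set (V n), IsOpen U → ∀ c : ℝ, (∀ y ∈ U, χ y = c) → p ∈ U →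
        ∀ i, pd i χ p = 0 := by
      intro U hU c hc hp i
      have h : χ =ᶠ[𝓝 p] fun _ => c := eventuallyEq_of_mem (hU.mem_nhds hp) hc
      unfold pd
      rw [h.fderiv_eq]; simp
    have hI : 0 ≤ (Metric.closedBall (0 : V n) 12).indicator
        (fun _ => n * B * (cU n N * Real.exp (-(7 / 10 * Nu * R)))) p :=
      indicator_nonneg (fun _ _ => hM0) p
    by_cases hp : p ∈ Ac n (998 / 1000) 12
    · have hpb : p ∈ Metric.closedBall (0 : V n) 12 := by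
        rw [mem_closedBall_zero_iff]
        exact (Real.le_sqrt_of_sq_le (nsq_le p)).trans hp.2
      by_cases h2 : √(HY.sq p) ≤ 999 / 1000
      · have h3 : p ∈ Eb (0 : V n) 1 := by
          show HY.sq (p - 0) < 1 ^ 2
          rw [sub_zero]
          have h4 : √(HY.sq p) ^ 2 = HY.sq p := Real.sq_sqrt (sq_nn p)
          have h5 : 0 ≤ √(HY.sq p) := Real.sqrt_nonneg _
          nlinarith
        rw [U1_zero hd h3]
        simpa using hI
      · by_cases h3 : 11 ≤ √(HY.sq p)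
        · rw [indicator_of_mem hpb]
          have b1 := U1_le hd.rp hk hε p
          have b2 := EE_far hn h0 h1 hκ hNu hR0.le hG (x := p) (by linarith)
          have b3 : U1 d p * EE n σ κ Nu R Gs p ≤ cU n N * Real.exp (-(7 / 10 * Nu * R)) :=
            mul_le_mul b1 b2 (EE_nonneg _ _ _ _ _ _) (cU_nonneg n N)
          calc ∑ i, |pd i χ p| * (U1 d p * EE n σ κ Nu R Gs p) ≤
                ∑ _i : Fin n, B * (cU n N * Real.exp (-(7 / 10 * Nu * R))) :=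
                Finset.sum_le_sum fun i _ => mul_le_mul (hB i p) b3
                  (mul_nonneg (U1_nonneg p) (EE_nonneg _ _ _ _ _ _)) hB0
            _ = _ := by
              rw [Finset.sum_const, Finset.card_univ, Fintype.card_fin, nsmul_eq_mul]; ring
        · push Not at h2 h3
          have := hz _ (isOpen_Ao (n := n) (999 / 1000) 11) 1 c3 ⟨h2, h3⟩
          simp only [this, abs_zero, zero_mul, Finset.sum_const_zero]
          exact hI
    · have := hz _ hcl.isOpen_compl 0 (fun y hy => c2 y hy) hp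
      simp only [this, abs_zero, zero_mul, Finset.sum_const_zero]
      exact hI
  have hg : Integrable ((Metric.closedBall (0 : V n) 12).indicator
      (fun _ : V n => n * B * (cU n N * Real.exp (-(7 / 10 * Nu * R))))) := by
    rw [integrable_indicator_iff measurableSet_closedBall]
    exact integrableOn_const hfin.ne
  refine (integral_mono_of_nonneg (ae_of_all _ fun p => ?_) hg (ae_of_all _ hpt)).trans
    (le_of_eq ?_)
  · exact Finset.sum_nonneg fun i _ => mul_nonneg (abs_nonneg _)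
      (mul_nonneg (U1_nonneg p) (EE_nonneg _ _ _ _ _ _))
  · rw [integral_indicator measurableSet_closedBall, setIntegral_const, smul_eq_mul, Measure.real]
    ring

/-- **Fields fa and pr** of `QKN`. -/
theorem fpN (n N : ℕ) (hn : 3 ≤ n) {σ κ ν D s C3 : ℝ} (h0 : 0 ≤ σ) (h1 : σ ≤ 1 / 10) (hκ : 0 ≤ κ)
    (hν : 0 < ν) (hD : 0 ≤ D) (hs : s ≤ 1) (hC3 : 0 ≤ C3) :
    ∃ C' R₀ η₁ : ℝ, 0 ≤ C' ∧ 0 < η₁ ∧ ∀ C'' : ℝ, C' ≤ C'' →
    ∀ (k : ℕ) (ε : ℝ), 1 ≤ k → ε ≤ 1 → ∀ (d : PD n N) (G : Set (V n)), NrmN k ε d G →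
    ∀ R kap Gs δ : ℝ, R₀ ≤ R → 1 ≤ R → 1 ≤ kap → kap ≤ Real.exp (η₁ * R) → -(1 / 10) ≤ Gs →
    0 ≤ δ → δ ≤ 1 → ∀ (k2 : Fin n → Fin n → MC n N) (η : VV n → ℝ) (K0 : KC n N) (q A' : ℝ)
    (L : ℕ), K2D d σ (ν + D) q A' R kap Gs L k2 → ED n (1 / R ^ 2) η →
    KO d σ κ (ν + D) R Gs (C3 * R ^ C3 * kap ^ s * δ) k2 η K0 →
    (∀ x ∈ Oc n, ∀ y ∈ Oc n, (x ∈ Ac n 9 24 ∨ y ∈ Ac n 9 24) → ∀ a' b',
      ‖K0 (x, y) a' b'‖ ≤ C'' * Real.exp (-(ν * R / 2))) ∧
    ∀ χ : V n → ℝ, ContDiff ℝ ∞ χ → (∀ x ∉ Ac n (998 / 1000) 12, χ x = 0) →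
      (∀ x ∈ Ao n (999 / 1000) 11, χ x = 1) →
      (∀ x, |χ x| ≤ 1) → ∀ B : ℝ, (∀ i x, |pd i χ x| ≤ B) →
      ‖(∫ x, (χ x : ℂ) * dgD d K0 x) - (ItN d σ (ν + D) R kap Gs : ℂ)‖ ≤
        C'' * (1 + B) * Real.exp (-(ν * R / 2)) := by
  obtain ⟨Bd, hBd, hb⟩ := rpow_exp_bd (c := 3 / 20 * ν) (C := C3) (by positivity) hC3
  have hcU := cU_nonneg n N
  obtain ⟨vo, hV⟩ : ∃ vo : ℝ, vo = (volume (Metric.closedBall (0 : V n) 12)).toReal := ⟨_, rfl⟩
  have hV0 : 0 ≤ vo := hV ▸ ENNReal.toReal_nonneg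
  have hn0 : (0 : ℝ) ≤ n := Nat.cast_nonneg _
  refine ⟨C3 * Bd * (2 + n * cU n N * vo), 100 * (n + 1), min (ν / 20) 1, by positivity,
    lt_min (by positivity) one_pos, ?_⟩
  intro C'' hC'' k ε hk hε d G hd R kap Gs δ hR hR1 hkap hkap1 hG hδ0 hδ k2 η K0 q A' L hK2 hE hK
  have hR0 : 0 < R := by linarith
  have hk0 : 0 < kap := by linarith
  have hA : 0 ≤ C3 * R ^ C3 * kap ^ s * δ := by positivity
  have hnum := num_A (D := D) hν hD hs hC3 (min_le_left _ _) hR1 hkap hkap1 hδ0 hδ (hb R hR1)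
  have hE0 : 0 < Real.exp (-(ν * R / 2)) := Real.exp_pos _
  have hCB : 0 ≤ C3 * Bd := by positivity
  have hkR : kap ≤ Real.exp R := by
    refine hkap1.trans (Real.exp_le_exp.2 ?_)
    have := mul_le_mul_of_nonneg_right (min_le_right (ν / 20) 1) hR0.le
    linarith
  constructor
  · intro x _ y _ hxy a' b'
    have hxy' : 9 ≤ √(HY.sq x) ∨ 9 ≤ √(HY.sq y) := hxy.imp (fun h => h.1) fun h => h.1
    refine (fa_N (by omega) h0 h1 hκ (by linarith) hR hG hA hE hK hxy' a' b').trans ?_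
    have h3 : C3 * Bd * 2 ≤ C'' := by
      refine le_trans (mul_le_mul_of_nonneg_left ?_ hCB) hC''
      have : 0 ≤ n * cU n N * vo := by positivity
      linarith
    calc 2 * (C3 * R ^ C3 * kap ^ s * δ * Real.exp (-(7 / 10 * (ν + D) * R))) ≤
          2 * (C3 * Bd * Real.exp (-(ν * R / 2))) := mul_le_mul_of_nonneg_left hnum (by norm_num)
      _ = C3 * Bd * 2 * Real.exp (-(ν * R / 2)) := by ring
      _ ≤ _ := mul_le_mul_of_nonneg_right h3 hE0.le
  · intro χ c1 c2 c3 _ B hB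
    have hB0 : 0 ≤ B := (abs_nonneg _).trans (hB ⟨0, by omega⟩ 0)
    refine (pr_N (by omega) hk hε hd h0 h1 hκ (by linarith) hR1 hG hA hkap hkR hK2 hE hK c1 c2 c3
      hB).trans ?_
    rw [← hV]
    have h3 : C3 * Bd * (n * cU n N * vo) ≤ C'' := by
      refine le_trans (mul_le_mul_of_nonneg_left ?_ hCB) hC''
      linarith
    have h4 : 0 ≤ n * B * cU n N * vo := by positivity
    have hC0 : 0 ≤ C'' := le_trans (by positivity) h3
    calc C3 * R ^ C3 * kap ^ s * δ *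
          (n * B * (cU n N * Real.exp (-(7 / 10 * (ν + D) * R))) * vo)
        = (C3 * R ^ C3 * kap ^ s * δ * Real.exp (-(7 / 10 * (ν + D) * R))) *
          (n * B * cU n N * vo) := by ring
      _ ≤ (C3 * Bd * Real.exp (-(ν * R / 2))) * (n * B * cU n N * vo) :=
          mul_le_mul_of_nonneg_right hnum h4
      _ = C3 * Bd * (n * cU n N * vo) * B * Real.exp (-(ν * R / 2)) := by ring
      _ ≤ C'' * (1 + B) * Real.exp (-(ν * R / 2)) := by
          refine mul_le_mul_of_nonneg_right (mul_le_mul h3 (by linarith) hB0 hC0) hE0.le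

end Vale.Agent.P088.S4.H509
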