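import Vale.Agent.P088.R2.H455.S4.SpecB
import Vale.Agent.P088.R2.H404.P1a
import Vale.Agent.P088.R2.H509.S4.Eta

/-!
# P088, stage 4, row P4N: the jets of the error near the diagonal
-/

open MeasureTheory Set Filter Topology
open scoped ContDiff Matrix

noncomputable section

namespace Vale.Agent.P088.S4.H509

open Vale.Agent.P088.LR Vale.Agent.P088.LR.U Vale.Agent.P088.LR.H158
open Vale.Agent.P088.PJ
open Vale.Agent.P088.HY (VV)
open Vale.Agent.P088.HY.T3 (Eb e0 Ao Ac iv rt_ball)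
open Vale.Agent.P088.HY.T4 (gx kk Oc Zq cg Lvl gx_lip)

variable {n N : ℕ}

/-- The jets of a test tensor, with decay off the level `Gs`. -/
def TkJ (σ R Gs Nu q M : ℝ) (L : ℕ) (k2 : Fin n → Fin n → MC n N) : Prop :=
  ∀ i j a b, ∀ l ≤ L, ∀ x ∈ Ac n (9 / 10) 13, ‖iteratedFDeriv ℝ l (fun y => k2 i j y a b) x‖ ≤
    M * (Real.exp (Nu * R * (gx n σ x - Gs)) * Real.exp (-(q * R * |gx n σ x - Gs|)))

theorem num_pow {S d : ℝ} (hS : 1 ≤ S) (hd0 : 0 ≤ d) (hd : d ≤ 4 / S) (l : ℕ) :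
    d ^ (2 - l) ≤ 16 * S ^ l / S ^ 2 := by
  have hS0 : 0 < S := by linarith
  rcases l with _ | _ | l
  · calc d ^ (2 - 0) = d ^ 2 := rfl
      _ ≤ (4 / S) ^ 2 := pow_le_pow_left₀ hd0 hd 2
      _ = 16 * S ^ 0 / S ^ 2 := by rw [div_pow]; norm_num
  · calc d ^ (2 - (0 + 1)) = d := pow_one _
      _ ≤ 4 / S := hd
      _ = 4 * S ^ (0 + 1) / S ^ 2 := by field_simp; ring
      _ ≤ 16 * S ^ (0 + 1) / S ^ 2 := by
        refine div_le_div_of_nonneg_right ?_ (by positivity)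
        exact mul_le_mul_of_nonneg_right (by norm_num) (by positivity)
  · have e : 2 - (l + 1 + 1) = 0 := by omega
    rw [e, pow_zero, le_div_iff₀ (by positivity), one_mul]
    calc S ^ 2 ≤ S ^ (l + 1 + 1) := pow_le_pow_right₀ hS (by omega)
      _ ≤ 16 * S ^ (l + 1 + 1) := by
        have : 0 < S ^ (l + 1 + 1) := by positivity
        linarith

theorem exp_nr {R Nu q Gs gp gw c : ℝ} (hR : 0 ≤ R) (hN : 0 ≤ Nu) (hq : 0 ≤ q)
    (h : |gw - gp| ≤ c) (hc : (Nu + q) * (R * c) ≤ 1) :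
    Real.exp (Nu * R * (gw - Gs)) * Real.exp (-(q * R * |gw - Gs|)) ≤
      3 * (Real.exp (Nu * R * (gp - Gs)) * Real.exp (-(q * R * |gp - Gs|))) := by
  have h1 : |gp - Gs| - |gw - Gs| ≤ c := by
    have := abs_sub_abs_le_abs_sub (gp - Gs) (gw - Gs)
    have e : gp - Gs - (gw - Gs) = -(gw - gp) := by ring
    rw [e, abs_neg] at this
    linarith
  have h2 : gw - gp ≤ c := (le_abs_self _).trans h
  have h4 : Nu * R * (gw - gp) ≤ Nu * R * c := mul_le_mul_of_nonneg_left h2 (by positivity)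
  have h5 : q * R * (|gp - Gs| - |gw - Gs|) ≤ q * R * c :=
    mul_le_mul_of_nonneg_left h1 (by positivity)
  have h3 : Nu * R * (gw - Gs) + -(q * R * |gw - Gs|) ≤
      1 + (Nu * R * (gp - Gs) + -(q * R * |gp - Gs|)) := by
    nlinarith
  rw [← Real.exp_add, ← Real.exp_add]
  calc Real.exp (Nu * R * (gw - Gs) + -(q * R * |gw - Gs|)) ≤
        Real.exp (1 + (Nu * R * (gp - Gs) + -(q * R * |gp - Gs|))) := Real.exp_le_exp.2 h3
    _ = Real.exp 1 * Real.exp (Nu * R * (gp - Gs) + -(q * R * |gp - Gs|)) := Real.exp_add _ _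
    _ ≤ _ := mul_le_mul_of_nonneg_right (by linarith [Real.exp_one_lt_d9]) (Real.exp_pos _).le

theorem num_S {R kap t S q D : ℝ} {m : ℕ} (hR : 0 ≤ R) (hk : 0 < kap)
    (hS : kap * Real.exp (R * t) ≤ S) (hq : D + m + 6 ≤ q) :
    1 / S ^ 2 * Real.exp (-(q * R * |t|)) ≤
      kap ^ (-2 : ℝ) * Real.exp (-((D + m + 4) * R * |t|)) := by
  have h0 : 0 < kap * Real.exp (R * t) := by positivity
  have h1 : 1 / S ^ 2 ≤ 1 / (kap * Real.exp (R * t)) ^ 2 :=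
    one_div_le_one_div_of_le (by positivity) (pow_le_pow_left₀ h0.le hS 2)
  have h2 : 1 / (kap * Real.exp (R * t)) ^ 2 = kap ^ (-2 : ℝ) * Real.exp (-(2 * (R * t))) := by
    rw [mul_pow, ← Real.exp_nat_mul, Real.exp_neg, Real.rpow_neg hk.le,
      show ((2 : ℝ)) = ((2 : ℕ) : ℝ) by norm_num, Real.rpow_natCast]
    field_simp
  have h3 : Real.exp (-(2 * (R * t))) * Real.exp (-(q * R * |t|)) ≤
      Real.exp (-((D + m + 4) * R * |t|)) := by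
    rw [← Real.exp_add]
    refine Real.exp_le_exp.2 ?_
    have h4 : -(R * t) ≤ R * |t| := by
      rw [← mul_neg]
      exact mul_le_mul_of_nonneg_left (neg_le_abs t) hR
    have h5 : 0 ≤ (q - (D + m + 6)) * (R * |t|) :=
      mul_nonneg (by linarith) (mul_nonneg hR (abs_nonneg _))
    nlinarith
  have h6 : 0 < kap ^ (-2 : ℝ) := Real.rpow_pos_of_pos hk _
  calc 1 / S ^ 2 * Real.exp (-(q * R * |t|)) ≤
        kap ^ (-2 : ℝ) * Real.exp (-(2 * (R * t))) * Real.exp (-(q * R * |t|)) :=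
        mul_le_mul_of_nonneg_right (h1.trans h2.le) (Real.exp_pos _).le
    _ = kap ^ (-2 : ℝ) * (Real.exp (-(2 * (R * t))) * Real.exp (-(q * R * |t|))) := by ring
    _ ≤ _ := mul_le_mul_of_nonneg_left h3 h6.le

/-- **Row jt**: the jets of the error near the diagonal. -/
theorem jtN (hKB : RowXKB) (n N L : ℕ) : ∃ (k : ℕ) (C ε : ℝ), 0 < C ∧ 0 < ε ∧
    ∀ σ Nu q D C₁ : ℝ, 0 ≤ Nu → 0 ≤ D → D + n + 6 ≤ q → 3 ≤ C₁ → ∃ R₀ : ℝ,
    ∀ R kap Gs M : ℝ, R₀ ≤ R → 1 ≤ R → 1 ≤ kap → 0 ≤ M →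
    ∀ (O Kc : Set (V n)) (d : PD n N), RLP k ε O Kc d →
    ∀ k2 : Fin n → Fin n → MC n N, Tk d.s₁ k2 → TkJ σ R Gs Nu q M (L + 2) k2 →
    ∀ (η : VV n → ℝ) (K0 : KC n N) (E₁ E₂ : VV n → ℝ),
    (∀ p ∈ Ac n 1 12, ∀ z ∈ Metric.ball ((p, p) : VV n) (2 / R ^ 3), η z = 1) →
    (∀ z a' b', ‖(LxK d K0 z - (η z : ℂ) • Fx d.s₁ d.τ d.β k2 z) a' b'‖ ≤
      (tsupport (fderiv ℝ η)).indicator E₁ z) →
    (∀ z a' b', ‖(RyK d K0 z -
      (η z : ℂ) • Fy d.s₁ d.s₂ d.τ d.P₂ d.G₂ d.β d.Y d.Γ k2 z) a' b'‖ ≤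
      (tsupport (fderiv ℝ η)).indicator E₂ z) →
    ∀ p ∈ Ac n 1 12, ∀ l ≤ L,
    ∀ z ∈ Metric.ball ((p, p) : VV n) (2 / (R ^ C₁ + kk n σ R kap Gs p)), ∀ a' b',
    ‖iteratedFDeriv ℝ l (fun z => (LxK d K0 z + RyK d K0 z) a' b') z‖ ≤
      C * M * kap ^ (-2 : ℝ) * Real.exp (Nu * R * (gx n σ p - Gs)) *
        Real.exp (-((D + n + 4) * R * |gx n σ p - Gs|)) *
        (R ^ C₁ + kk n σ R kap Gs p) ^ l := by
  obtain ⟨k, C, ε, hC, hε, H⟩ := hKB n N L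
  refine ⟨k, 96 * C, ε, by positivity, hε, ?_⟩
  intro σ Nu q D C₁ hNu hD hq hC1
  obtain ⟨Λ, hΛ, hlip⟩ := gx_lip (n := n) σ
  refine ⟨20 * (n + 1) + 2 * Λ * (Nu + q) + 4, ?_⟩
  intro R kap Gs M hR0 hR1 hk1 hM O Kc d hd k2 hk2 hJ η K0 E₁ E₂ hη h1 h2 p hp l hl z hz a' b'
  have hn0 : (0 : ℝ) ≤ n := Nat.cast_nonneg _
  have hq0 : 0 ≤ q := by linarith
  have hΛq : 0 ≤ 2 * Λ * (Nu + q) := by
    have : 0 ≤ Λ := by linarith
    positivity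
  have hRn : 20 * ((n : ℝ) + 1) ≤ R := by linarith
  have hRΛ : 2 * Λ * (Nu + q) ≤ R := by linarith
  have hR4 : 4 ≤ R := by linarith
  have hRp : 0 < R := by linarith
  have hk0 : 0 < kap := by linarith
  set S := R ^ C₁ + kk n σ R kap Gs p with hS
  have hkk : 0 < kk n σ R kap Gs p := mul_pos hk0 (Real.exp_pos _)
  have hRC : R ^ 3 ≤ R ^ C₁ := by
    rw [← Real.rpow_natCast]
    exact Real.rpow_le_rpow_of_exponent_le hR1 (by simpa using hC1)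
  have hR3 : R ≤ R ^ 3 := by
    calc R = R ^ 1 := (pow_one _).symm
      _ ≤ R ^ 3 := pow_le_pow_right₀ hR1 (by norm_num)
  have hS3 : R ^ 3 ≤ S := by linarith
  have hS1 : 1 ≤ S := by linarith
  have hS0 : 0 < S := by linarith
  have hR30 : 0 < R ^ 3 := by positivity
  have hr : 2 / S ≤ 2 / R ^ 3 := div_le_div_of_nonneg_left (by norm_num) hR30 hS3
  have hzB : z ∈ Metric.ball ((p, p) : VV n) (2 / R ^ 3) := Metric.ball_subset_ball hr hz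
  -- the identities near `z`
  have hoff := off_ts (η := η) Metric.isOpen_ball (hη p hp)
  have e1 : ∀ w ∈ Metric.ball ((p, p) : VV n) (2 / R ^ 3),
      LxK d K0 w a' b' = Fx d.s₁ d.τ d.β k2 w a' b' := by
    intro w hw
    have h3 := h1 w a' b'
    rw [indicator_of_notMem (hoff w hw), hη p hp w hw] at h3
    have h4 := norm_le_zero_iff.1 h3
    simpa [sub_eq_zero] using h4
  have e2 : ∀ w ∈ Metric.ball ((p, p) : VV n) (2 / R ^ 3),
      RyK d K0 w a' b' = Fy d.s₁ d.s₂ d.τ d.P₂ d.G₂ d.β d.Y d.Γ k2 w a' b' := by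
    intro w hw
    have h3 := h2 w a' b'
    rw [indicator_of_notMem (hoff w hw), hη p hp w hw] at h3
    have h4 := norm_le_zero_iff.1 h3
    simpa [sub_eq_zero] using h4
  have e3 : (fun z => (LxK d K0 z + RyK d K0 z) a' b') =ᶠ[𝓝 z]
      (fun z => Fx d.s₁ d.τ d.β k2 z a' b') +
        fun z => Fy d.s₁ d.s₂ d.τ d.P₂ d.G₂ d.β d.Y d.Γ k2 z a' b' := by
    filter_upwards [Metric.isOpen_ball.mem_nhds hzB] with w hw
    rw [Matrix.add_apply, e1 w hw, e2 w hw, Pi.add_apply]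
  obtain ⟨s1, s2, hB⟩ := H O Kc d.j₀ d.s₁ d.s₂ d.P₁ d.P₂ d.G₁ d.G₂ d.β d.Y d.D hd.rl d.Γ hd.ig d.τ
    hd.st hd.it k2 hk2
  -- distances
  obtain ⟨hz1, hz2⟩ : dist z.1 p < 2 / S ∧ dist z.2 p < 2 / S := by
    rw [Metric.mem_ball, Prod.dist_eq, max_lt_iff] at hz
    exact hz
  have hzz : ‖z.1 - z.2‖ ≤ 4 / S := by
    rw [← dist_eq_norm]
    have := dist_triangle_right z.1 z.2 p
    have e : (4 : ℝ) / S = 2 / S + 2 / S := by ring
    rw [e]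
    linarith
  have hz1' : ‖z.1 - z.2‖ ≤ 1 := by
    refine hzz.trans ?_
    rw [div_le_one hS0]
    linarith
  have hr3 : 0 < 2 / R ^ 3 := by positivity
  have hrn : (n + 1) * (2 / R ^ 3) ≤ 1 / 10 := by
    rw [mul_div_assoc', div_le_iff₀ hR30]
    linarith
  have hz2' : z.2 ∈ Metric.ball p (2 / R ^ 3) := Metric.mem_ball.2 (hz2.trans_le hr)
  have hAc : z.2 ∈ Ac n (9 / 10) 13 := by
    obtain ⟨g1, g2⟩ := rt_ball hr3.le hz2'
    exact ⟨by linarith [hp.1], by linarith [hp.2]⟩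
  have hpA : p ∈ Ac n (4 / 5) 22 := ⟨by linarith [hp.1], by linarith [hp.2]⟩
  have hg := hlip p hpA _ hr3 hrn z.2 hz2' p (Metric.mem_ball_self hr3)
  have hg1 : |gx n σ z.2 - gx n σ p| ≤ Λ * (2 / R ^ 3) :=
    hg.trans (mul_le_mul_of_nonneg_left (hz2.trans_le hr).le (by linarith))
  have hgc : (Nu + q) * (R * (Λ * (2 / R ^ 3))) ≤ 1 := by
    have e : (Nu + q) * (R * (Λ * (2 / R ^ 3))) = (2 * Λ * (Nu + q)) / R ^ 2 := by
      field_simp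
    rw [e, div_le_one (by positivity)]
    have : R ≤ R ^ 2 := by nlinarith
    linarith
  have hnr := exp_nr (Gs := Gs) hRp.le hNu hq0 hg1 hgc
  have hB0 : 0 ≤ M * (3 * (Real.exp (Nu * R * (gx n σ p - Gs)) *
      Real.exp (-(q * R * |gx n σ p - Gs|)))) := by positivity
  obtain ⟨b1, b2⟩ := hB z hz1' _ hB0 l hl (fun i j a b m hm =>
    (hJ i j a b m (by omega) z.2 hAc).trans (mul_le_mul_of_nonneg_left hnr hM)) a' b'
  have hpw := num_pow hS1 (norm_nonneg _) hzz l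
  have hnS := num_S (m := n) (t := gx n σ p - Gs) (S := S) hRp.le hk0 (by
    show kap * Real.exp (R * (gx n σ p - Gs)) ≤ S
    have : kk n σ R kap Gs p = kap * Real.exp (R * (gx n σ p - Gs)) := rfl
    have h0 : 0 < R ^ C₁ := by linarith
    rw [hS, this]; linarith) hq
  -- conclusion
  rw [(Filter.EventuallyEq.iteratedFDeriv ℝ e3 l).eq_of_nhds, iteratedFDeriv_add_apply
    (((s1 a' b').contDiffAt univ_mem).of_le (by exact_mod_cast le_top))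
    (((s2 a' b').contDiffAt univ_mem).of_le (by exact_mod_cast le_top))]
  have hfin : C * ‖z.1 - z.2‖ ^ (2 - l) * (M * (3 * (Real.exp (Nu * R * (gx n σ p - Gs)) *
      Real.exp (-(q * R * |gx n σ p - Gs|))))) ≤ 48 * C * M * kap ^ (-2 : ℝ) *
        Real.exp (Nu * R * (gx n σ p - Gs)) *
        Real.exp (-((D + n + 4) * R * |gx n σ p - Gs|)) * S ^ l := by
    calc C * ‖z.1 - z.2‖ ^ (2 - l) * (M * (3 * (Real.exp (Nu * R * (gx n σ p - Gs)) *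
        Real.exp (-(q * R * |gx n σ p - Gs|)))))
        ≤ C * (16 * S ^ l / S ^ 2) * (M * (3 * (Real.exp (Nu * R * (gx n σ p - Gs)) *
        Real.exp (-(q * R * |gx n σ p - Gs|))))) :=
          mul_le_mul_of_nonneg_right (mul_le_mul_of_nonneg_left hpw hC.le) hB0
      _ = 48 * C * M * Real.exp (Nu * R * (gx n σ p - Gs)) * S ^ l *
          (1 / S ^ 2 * Real.exp (-(q * R * |gx n σ p - Gs|))) := by ring
      _ ≤ 48 * C * M * Real.exp (Nu * R * (gx n σ p - Gs)) * S ^ l *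
          (kap ^ (-2 : ℝ) * Real.exp (-((D + n + 4) * R * |gx n σ p - Gs|))) :=
          mul_le_mul_of_nonneg_left hnS (by positivity)
      _ = _ := by ring
  refine (norm_add_le _ _).trans ?_
  calc _ ≤ _ := add_le_add (b1.trans hfin) (b2.trans hfin)
    _ = _ := by ring

/-- The hypothesis on the cut-off from `exists_eta` with `t = 1 / R ^ 2`. -/
theorem eta_one (n : ℕ) {a' b' : ℝ} (ha : a' < 1) (hb : 12 < b') : ∃ R₀ : ℝ, ∀ R : ℝ, R₀ ≤ R →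
    1 ≤ R → ∀ η : VV n → ℝ,
    (∀ z, z.1 ∈ Ac n a' b' → ‖z.1 - z.2‖ ≤ 1 / R ^ 2 / 2 → η z = 1) →
    ∀ p ∈ Ac n 1 12, ∀ z ∈ Metric.ball ((p, p) : VV n) (2 / R ^ 3), η z = 1 := by
  obtain ⟨e, he0, he1, he2⟩ : ∃ e : ℝ, 0 < e ∧ e ≤ 1 - a' ∧ e ≤ b' - 12 :=
    ⟨min (1 - a') (b' - 12), lt_min (by linarith) (by linarith), min_le_left _ _, min_le_right _ _⟩
  refine ⟨8 + 2 * (n + 1) / e, fun R hR hR1 η h p hp z hz => ?_⟩
  have hn0 : (0 : ℝ) ≤ n := Nat.cast_nonneg _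
  have h0 : 0 ≤ 2 * ((n : ℝ) + 1) / e := by positivity
  have hRp : 0 < R := by linarith
  have hR8 : 8 ≤ R := by linarith
  have hRe : 2 * ((n : ℝ) + 1) / e ≤ R := by linarith
  have hR3 : R ≤ R ^ 3 := by
    calc R = R ^ 1 := (pow_one _).symm
      _ ≤ R ^ 3 := pow_le_pow_right₀ hR1 (by norm_num)
  have hR30 : 0 < R ^ 3 := by positivity
  obtain ⟨hz1, hz2⟩ : dist z.1 p < 2 / R ^ 3 ∧ dist z.2 p < 2 / R ^ 3 := by
    rw [Metric.mem_ball, Prod.dist_eq, max_lt_iff] at hz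
    exact hz
  have hr : (n + 1) * (2 / R ^ 3) ≤ e := by
    rw [mul_div_assoc', div_le_iff₀ hR30]
    rw [div_le_iff₀ he0] at hRe
    have : R * e ≤ e * R ^ 3 := by
      rw [mul_comm]; exact mul_le_mul_of_nonneg_left hR3 he0.le
    linarith
  obtain ⟨g1, g2⟩ := rt_ball (by positivity : (0 : ℝ) ≤ 2 / R ^ 3) (Metric.mem_ball.2 hz1)
  refine h z ⟨by linarith [hp.1], by linarith [hp.2]⟩ ?_
  rw [← dist_eq_norm]
  have h3 := dist_triangle_right z.1 z.2 p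
  have h4 : 4 / R ^ 3 ≤ 1 / R ^ 2 / 2 := by
    rw [div_div, div_le_div_iff₀ hR30 (by positivity)]
    have : 8 * R ^ 2 ≤ R * R ^ 2 := mul_le_mul_of_nonneg_right hR8 (by positivity)
    calc 4 * (R ^ 2 * 2) = 8 * R ^ 2 := by ring
      _ ≤ R * R ^ 2 := this
      _ = 1 * R ^ 3 := by ring
  have e4 : (4 : ℝ) / R ^ 3 = 2 / R ^ 3 + 2 / R ^ 3 := by ring
  linarith

/-- **Row jt**, in the form of `QKN.jt`. -/
theorem jtN' (hKB : RowXKB) (n N L : ℕ) : ∃ (k : ℕ) (ε : ℝ), 0 < ε ∧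
    ∀ σ ν D q s C₁ C0 : ℝ, 0 ≤ ν + D → 0 ≤ D → D + n + 6 ≤ q → 0 ≤ s → 3 ≤ C₁ → 0 ≤ C0 →
    ∃ C' R₀ : ℝ, 0 ≤ C' ∧ ∀ C'' : ℝ, C' ≤ C'' →
    ∀ R kap Gs δ : ℝ, R₀ ≤ R → 1 ≤ R → 1 ≤ kap → 0 ≤ δ →
    ∀ (O Kc : Set (V n)) (d : PD n N), RLP k ε O Kc d →
    ∀ k2 : Fin n → Fin n → MC n N, Tk d.s₁ k2 →
    TkJ σ R Gs (ν + D) q (C0 * R ^ C0 * kap ^ s * δ) (L + 2) k2 →
    ∀ (η : VV n → ℝ) (K0 : KC n N) (E₁ E₂ : VV n → ℝ),
    (∀ p ∈ Ac n 1 12, ∀ z ∈ Metric.ball ((p, p) : VV n) (2 / R ^ 3), η z = 1) →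
    (∀ z a' b', ‖(LxK d K0 z - (η z : ℂ) • Fx d.s₁ d.τ d.β k2 z) a' b'‖ ≤
      (tsupport (fderiv ℝ η)).indicator E₁ z) →
    (∀ z a' b', ‖(RyK d K0 z -
      (η z : ℂ) • Fy d.s₁ d.s₂ d.τ d.P₂ d.G₂ d.β d.Y d.Γ k2 z) a' b'‖ ≤
      (tsupport (fderiv ℝ η)).indicator E₂ z) →
    ∀ p ∈ Ac n 1 12, ∀ l ≤ L,
    ∀ z ∈ Metric.ball ((p, p) : VV n) (2 / (R ^ C₁ + kk n σ R kap Gs p)), ∀ a' b',
    ‖iteratedFDeriv ℝ l (fun z => (LxK d K0 z + RyK d K0 z) a' b') z‖ ≤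
      C'' * R ^ C'' * kap ^ (2 * s - 2) * δ * Real.exp ((ν + D) * R * (gx n σ p - Gs)) *
        Real.exp (-((D + n + 4) * R * |gx n σ p - Gs|)) *
        (R ^ C₁ + kk n σ R kap Gs p) ^ l := by
  obtain ⟨k, C, ε, hC, hε, H⟩ := jtN hKB n N L
  refine ⟨k, ε, hε, ?_⟩
  intro σ ν D q s C₁ C0 hν hD hq hs hC1 hC0
  obtain ⟨R₀, H⟩ := H σ (ν + D) q D C₁ hν hD hq hC1
  refine ⟨max (C * C0) C0, R₀, hC0.trans (le_max_right _ _), ?_⟩
  intro C'' hC'' R kap Gs δ hR hR1 hk hδ O Kc d hd k2 hk2 hJ η K0 E₁ E₂ hη h1 h2 p hp l hl z hz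
    a' b'
  have hk0 : 0 < kap := by linarith
  have hR0 : 0 < R := by linarith
  have hM : 0 ≤ C0 * R ^ C0 * kap ^ s * δ := by positivity
  refine (H R kap Gs _ hR hR1 hk hM O Kc d hd k2 hk2 hJ η K0 E₁ E₂ hη h1 h2 p hp l hl z hz
    a' b').trans ?_
  have h3 : kap ^ s * kap ^ (-2 : ℝ) ≤ kap ^ (2 * s - 2) := by
    rw [← Real.rpow_add hk0]
    exact Real.rpow_le_rpow_of_exponent_le hk (by linarith)
  have h4 : R ^ C0 ≤ R ^ C'' :=
    Real.rpow_le_rpow_of_exponent_le hR1 ((le_max_right _ _).trans hC'')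
  have h5 : C * C0 ≤ C'' := (le_max_left _ _).trans hC''
  have h6 : 0 ≤ C'' := hC0.trans ((le_max_right _ _).trans hC'')
  have hS : 0 ≤ R ^ C₁ + kk n σ R kap Gs p :=
    add_nonneg (by positivity) (mul_pos hk0 (Real.exp_pos _)).le
  have h7 : C * C0 * (R ^ C0 * (kap ^ s * kap ^ (-2 : ℝ))) ≤
      C'' * (R ^ C'' * kap ^ (2 * s - 2)) :=
    mul_le_mul h5 (mul_le_mul h4 h3 (by positivity) (by positivity)) (by positivity) h6
  calc C * (C0 * R ^ C0 * kap ^ s * δ) * kap ^ (-2 : ℝ) *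
        Real.exp ((ν + D) * R * (gx n σ p - Gs)) *
        Real.exp (-((D + n + 4) * R * |gx n σ p - Gs|)) * (R ^ C₁ + kk n σ R kap Gs p) ^ l
      = C * C0 * (R ^ C0 * (kap ^ s * kap ^ (-2 : ℝ))) * (δ *
        Real.exp ((ν + D) * R * (gx n σ p - Gs)) *
        Real.exp (-((D + n + 4) * R * |gx n σ p - Gs|)) *
        (R ^ C₁ + kk n σ R kap Gs p) ^ l) := by ring
    _ ≤ C'' * (R ^ C'' * kap ^ (2 * s - 2)) * (δ *
        Real.exp ((ν + D) * R * (gx n σ p - Gs)) *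
        Real.exp (-((D + n + 4) * R * |gx n σ p - Gs|)) *
        (R ^ C₁ + kk n σ R kap Gs p) ^ l) :=
        mul_le_mul_of_nonneg_right h7 (by positivity)
    _ = _ := by ring

end Vale.Agent.P088.S4.H509
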